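import Mathlib

/-!
Arithmetic of the hard multiplier.
-/

namespace Vale.Agent.Lib.P338

lemma testBit_mul_flip (u y j : ℕ) (hy : y % 2 = 1) :
    ((u + 2 ^ j) * y).testBit j ≠ (u * y).testBit j := by
  rw [Nat.testBit_eq_decide_div_mod_eq, Nat.testBit_eq_decide_div_mod_eq]
  have h : (u + 2 ^ j) * y = u * y + 2 ^ j * y := by ring
  rw [h, Nat.add_mul_div_left _ _ (by positivity)]
  intro he
  have h2 := decide_eq_decide.1 he
  omega

/-- The exponents of the hard multiplier. -/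
def hardExps (n : ℕ) : Finset ℕ :=
  (insert 0 ((Finset.range n).image fun i => 2 ^ i)).filter (· < n)

/-- The hard multiplier: the sum of `2 ^ e` over `e = 0` and over the powers of two below `n`. -/
def hardY (n : ℕ) : ℕ := ∑ e ∈ hardExps n, 2 ^ e

lemma mem_hardExps {n e : ℕ} : e ∈ hardExps n ↔ (e = 0 ∨ ∃ i, e = 2 ^ i) ∧ e < n := by
  simp only [hardExps, Finset.mem_filter, Finset.mem_insert, Finset.mem_image, Finset.mem_range]
  constructor
  · rintro ⟨h | ⟨i, _, rfl⟩, h2⟩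
    · exact ⟨Or.inl h, h2⟩
    · exact ⟨Or.inr ⟨i, rfl⟩, h2⟩
  · rintro ⟨h | ⟨i, rfl⟩, h2⟩
    · exact ⟨Or.inl h, h2⟩
    · exact ⟨Or.inr ⟨i, (Nat.lt_two_pow_self).trans h2, rfl⟩, h2⟩

lemma hardY_lt (n : ℕ) : hardY n < 2 ^ n :=
  Nat.geomSum_lt (le_refl 2) fun _ he => (mem_hardExps.1 he).2

lemma hardY_odd {n : ℕ} (hn : 1 ≤ n) : hardY n % 2 = 1 := by
  have h0 : 0 ∈ hardExps n := mem_hardExps.2 ⟨Or.inl rfl, by omega⟩
  rw [hardY, ← Finset.add_sum_erase _ _ h0, pow_zero]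
  have hdvd : 2 ∣ ∑ e ∈ (hardExps n).erase 0, 2 ^ e := by
    apply Finset.dvd_sum
    intro e he
    have hne := (Finset.mem_erase.1 he).1
    exact dvd_pow_self 2 hne
  omega

/-- The decomposition of the hard multiplier at the scale `2 ^ ℓ`. -/
lemma hardY_split {n ℓ : ℕ} (hℓ : 1 ≤ ℓ) (hn : 2 * 2 ^ ℓ ≤ n) :
    ∃ R Y', hardY n = R + 2 ^ (2 ^ ℓ) + 2 ^ (2 * 2 ^ ℓ) * Y' ∧ R < 2 ^ (2 ^ (ℓ - 1) + 1) := by
  classical
  set m := 2 ^ ℓ with hm
  have hmpos : 0 < m := by positivity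
  have hpow : m = 2 * 2 ^ (ℓ - 1) := by
    rw [hm, ← pow_succ']
    congr 1
    omega
  have hmem : m ∈ hardExps n := mem_hardExps.2 ⟨Or.inr ⟨ℓ, rfl⟩, by omega⟩
  set Lo := (hardExps n).filter (· < m) with hLo
  set Hi := (hardExps n).filter (m < ·) with hHi
  have hsplit : hardY n = ∑ e ∈ Lo, 2 ^ e + 2 ^ m + ∑ e ∈ Hi, 2 ^ e := by
    have h1 : hardExps n = Lo ∪ ({m} ∪ Hi) := by
      ext e
      simp only [hLo, hHi, Finset.mem_union, Finset.mem_filter, Finset.mem_singleton]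
      constructor
      · intro he
        rcases lt_trichotomy e m with h | h | h
        · exact Or.inl ⟨he, h⟩
        · exact Or.inr (Or.inl h)
        · exact Or.inr (Or.inr ⟨he, h⟩)
      · rintro (h | h | h)
        · exact h.1
        · rw [h]; exact hmem
        · exact h.1
    have h2 : Disjoint Lo ({m} ∪ Hi) := by
      rw [Finset.disjoint_left]
      intro e he he'
      have := (Finset.mem_filter.1 he).2
      simp only [hHi, Finset.mem_union, Finset.mem_singleton, Finset.mem_filter] at he'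
      rcases he' with h | h
      · omega
      · have := h.2; omega
    have h3 : Disjoint ({m} : Finset ℕ) Hi := by
      rw [Finset.disjoint_left]
      intro e he he'
      have h4 := (Finset.mem_filter.1 he').2
      rw [Finset.mem_singleton] at he
      omega
    rw [hardY, h1, Finset.sum_union h2, Finset.sum_union h3, Finset.sum_singleton, add_assoc]
  -- the high part
  have hdvd : 2 ^ (2 * m) ∣ ∑ e ∈ Hi, 2 ^ e := by
    apply Finset.dvd_sum
    intro e he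
    obtain ⟨he1, he2⟩ := Finset.mem_filter.1 he
    obtain ⟨h3, _⟩ := mem_hardExps.1 he1
    have h2m : 2 * m ≤ e := by
      rcases h3 with h3 | ⟨i, rfl⟩
      · omega
      · have hi : ℓ < i := by
          by_contra hc
          have : 2 ^ i ≤ 2 ^ ℓ := Nat.pow_le_pow_right (by norm_num) (not_lt.1 hc)
          omega
        have : 2 ^ (ℓ + 1) ≤ 2 ^ i := Nat.pow_le_pow_right (by norm_num) hi
        rw [pow_succ] at this
        omega
    exact pow_dvd_pow 2 h2m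
  obtain ⟨Y', hY'⟩ := hdvd
  refine ⟨∑ e ∈ Lo, 2 ^ e, Y', ?_, ?_⟩
  · rw [hsplit, hY']
  · apply Nat.geomSum_lt (le_refl 2)
    intro e he
    obtain ⟨he1, he2⟩ := Finset.mem_filter.1 he
    obtain ⟨h3, _⟩ := mem_hardExps.1 he1
    rcases h3 with h3 | ⟨i, rfl⟩
    · omega
    · have hi : i < ℓ := by
        by_contra hc
        have : 2 ^ ℓ ≤ 2 ^ i := Nat.pow_le_pow_right (by norm_num) (not_lt.1 hc)
        omega
      have : 2 ^ i ≤ 2 ^ (ℓ - 1) := Nat.pow_le_pow_right (by norm_num) (by omega)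
      omega

/-- Equal digits in a range give a congruence with a small remainder. -/
lemma same_bits_relation {z₁ z₂ b m' : ℕ}
    (hbits : ∀ j, b ≤ j → j < b + m' → z₁.testBit j = z₂.testBit j) :
    ∃ (r K : ℤ), (z₂ : ℤ) - z₁ = r + 2 ^ (b + m') * K ∧ |r| < 2 ^ b := by
  have hmid : (z₁ / 2 ^ b) % 2 ^ m' = (z₂ / 2 ^ b) % 2 ^ m' := by
    apply Nat.eq_of_testBit_eq
    intro i
    rw [Nat.testBit_mod_two_pow, Nat.testBit_mod_two_pow, Nat.testBit_div_two_pow,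
      Nat.testBit_div_two_pow]
    by_cases hi : i < m'
    · simp only [decide_eq_true hi, Bool.true_and]
      exact hbits _ (by omega) (by omega)
    · simp [hi]
  have e1 : ∀ z : ℕ, z = z % 2 ^ b + 2 ^ b * ((z / 2 ^ b) % 2 ^ m' + 2 ^ m' * (z / 2 ^ b / 2 ^ m')) := by
    intro z
    rw [Nat.mod_add_div (z / 2 ^ b) (2 ^ m'), Nat.mod_add_div]
  refine ⟨((z₂ % 2 ^ b : ℕ) : ℤ) - ((z₁ % 2 ^ b : ℕ) : ℤ),
    ((z₂ / 2 ^ b / 2 ^ m' : ℕ) : ℤ) - ((z₁ / 2 ^ b / 2 ^ m' : ℕ) : ℤ), ?_, ?_⟩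
  · have h1 := e1 z₁
    have h2 := e1 z₂
    rw [← hmid] at h2
    have h1' : (z₁ : ℤ) = ((z₁ % 2 ^ b : ℕ) : ℤ) + 2 ^ b * (((z₁ / 2 ^ b % 2 ^ m' : ℕ) : ℤ) +
        2 ^ m' * ((z₁ / 2 ^ b / 2 ^ m' : ℕ) : ℤ)) := by exact_mod_cast h1
    have h2' : (z₂ : ℤ) = ((z₂ % 2 ^ b : ℕ) : ℤ) + 2 ^ b * (((z₁ / 2 ^ b % 2 ^ m' : ℕ) : ℤ) +
        2 ^ m' * ((z₂ / 2 ^ b / 2 ^ m' : ℕ) : ℤ)) := by exact_mod_cast h2
    rw [pow_add]
    linear_combination h2' - h1'
  · have hb : (0 : ℕ) < 2 ^ b := by positivity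
    have h1 := Nat.mod_lt z₁ hb
    have h2 := Nat.mod_lt z₂ hb
    have h1' : ((z₁ % 2 ^ b : ℕ) : ℤ) < 2 ^ b := by exact_mod_cast h1
    have h2' : ((z₂ % 2 ^ b : ℕ) : ℤ) < 2 ^ b := by exact_mod_cast h2
    have h3 : (0 : ℤ) ≤ ((z₁ % 2 ^ b : ℕ) : ℤ) := by positivity
    have h4 : (0 : ℤ) ≤ ((z₂ % 2 ^ b : ℕ) : ℤ) := by positivity
    rw [abs_lt]
    constructor <;> linarith

/-- The window relation: equal digits of the two products force a congruence. -/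
lemma window_congruence {y a m m' ξ₁ ξ₂ w R Y' : ℕ}
    (hy : y = R + 2 ^ m + 2 ^ (2 * m) * Y') (hm' : m' ≤ m)
    (hξ₁ : ξ₁ < 2 ^ m) (hξ₂ : ξ₂ < 2 ^ m)
    (hbits : ∀ j, a + m ≤ j → j < a + m + m' →
      ((w + 2 ^ a * ξ₁) * y).testBit j = ((w + 2 ^ a * ξ₂) * y).testBit j) :
    ∃ Q : ℤ, |Q| ≤ R ∧ (2 ^ m' : ℤ) ∣ ((ξ₂ : ℤ) - ξ₁ + Q) := by
  obtain ⟨r, K, hrel, hr⟩ := same_bits_relation hbits
  set d : ℤ := (ξ₂ : ℤ) - ξ₁ with hd
  have hdlt : |d| < 2 ^ m := by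
    have h1 : (ξ₁ : ℤ) < 2 ^ m := by exact_mod_cast hξ₁
    have h2 : (ξ₂ : ℤ) < 2 ^ m := by exact_mod_cast hξ₂
    have h3 : (0 : ℤ) ≤ ξ₁ := by positivity
    have h4 : (0 : ℤ) ≤ ξ₂ := by positivity
    rw [abs_lt]
    constructor <;> linarith
  -- the difference of the products
  have h2a : (2 : ℤ) ^ a ≠ 0 := by positivity
  have hdiff : (2 : ℤ) ^ a * (d * y) = r + 2 ^ (a + m + m') * K := by
    rw [← hrel, hd]
    push_cast
    ring
  have hdvd : (2 : ℤ) ^ a ∣ r := by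
    have h1 : r = 2 ^ a * (d * y) - 2 ^ a * (2 ^ (m + m') * K) := by
      rw [hdiff]
      have : (2 : ℤ) ^ (a + m + m') = 2 ^ a * 2 ^ (m + m') := by rw [add_assoc, pow_add]
      rw [this]
      ring
    rw [h1, ← mul_sub]
    exact dvd_mul_right _ _
  obtain ⟨r', hr'⟩ := hdvd
  have hr'lt : |r'| < 2 ^ m := by
    rw [hr', abs_mul, abs_of_pos (by positivity : (0 : ℤ) < 2 ^ a), pow_add] at hr
    exact lt_of_mul_lt_mul_left hr (by positivity)
  have hmain : d * y = r' + 2 ^ (m + m') * K := by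
    have h1 : (2 : ℤ) ^ a * (d * y) = 2 ^ a * (r' + 2 ^ (m + m') * K) := by
      rw [hdiff, hr']
      have : (2 : ℤ) ^ (a + m + m') = 2 ^ a * 2 ^ (m + m') := by rw [add_assoc, pow_add]
      rw [this]
      ring
    exact mul_left_cancel₀ h2a h1
  have hy' : (y : ℤ) = R + 2 ^ m + 2 ^ (2 * m) * Y' := by exact_mod_cast hy
  -- the quotient
  set Q : ℤ := 2 ^ m' * K - d - 2 ^ m * (d * Y') with hQ
  have hmQ : d * R - r' = 2 ^ m * Q := by
    rw [hy'] at hmain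
    rw [hQ]
    have e2 : (2 : ℤ) ^ (2 * m) = 2 ^ m * 2 ^ m := by rw [two_mul, pow_add]
    have e3 : (2 : ℤ) ^ (m + m') = 2 ^ m * 2 ^ m' := pow_add _ _ _
    rw [e2] at hmain
    rw [e3] at hmain
    linear_combination hmain
  refine ⟨Q, ?_, ?_⟩
  · -- the bound on the quotient
    have h1 : |d * R - r'| < 2 ^ m * (R + 1) := by
      calc |d * R - r'| ≤ |d * R| + |r'| := abs_sub _ _
        _ = |d| * R + |r'| := by
            rw [abs_mul, abs_of_nonneg (by positivity : (0 : ℤ) ≤ R)]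
        _ < 2 ^ m * R + 2 ^ m := by
            have hR : (0 : ℤ) ≤ R := by positivity
            nlinarith
        _ = 2 ^ m * (R + 1) := by ring
    rw [hmQ, abs_mul, abs_of_pos (by positivity : (0 : ℤ) < 2 ^ m)] at h1
    have h2 := lt_of_mul_lt_mul_left h1 (by positivity)
    omega
  · have e4 : d + Q = 2 ^ m' * K - 2 ^ m * (d * Y') := by rw [hQ]; ring
    rw [e4]
    apply dvd_sub (dvd_mul_right _ _)
    exact (pow_dvd_pow (2 : ℤ) hm').trans (dvd_mul_right _ _)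

/-- The count of numbers below `2 ^ m` in the residue classes of the window relation. -/
lemma card_window_le {m m' ξ₁ R : ℕ} (hm' : m' ≤ m) (A : Finset ℕ)
    (hA : ∀ ξ ∈ A, ξ < 2 ^ m ∧ ∃ Q : ℤ, |Q| ≤ R ∧ (2 ^ m' : ℤ) ∣ ((ξ : ℤ) - ξ₁ + Q)) :
    A.card ≤ (2 * R + 1) * 2 ^ (m - m') := by
  classical
  have hcard : ((Finset.Icc (-(R : ℤ)) R) ×ˢ (Finset.range (2 ^ (m - m')))).card =
      (2 * R + 1) * 2 ^ (m - m') := by
    rw [Finset.card_product, Int.card_Icc, Finset.card_range]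
    congr 1
    omega
  rw [← hcard]
  apply Finset.card_le_card_of_forall_subsingleton
    (fun (ξ : ℕ) (p : ℤ × ℕ) => (2 ^ m' : ℤ) ∣ ((ξ : ℤ) - ξ₁ + p.1) ∧ p.2 = ξ / 2 ^ m')
  · intro ξ hξ
    obtain ⟨h1, Q, hQ, hdvd⟩ := hA ξ hξ
    refine ⟨(Q, ξ / 2 ^ m'), ?_, hdvd, rfl⟩
    simp only [Finset.mem_product, Finset.mem_Icc, Finset.mem_range]
    refine ⟨abs_le.1 hQ, ?_⟩
    apply Nat.div_lt_of_lt_mul
    rw [← pow_add]
    rwa [show m' + (m - m') = m by omega]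
  · rintro ⟨Q, c⟩ _ ξ hξ ξ' hξ'
    obtain ⟨_, h1, h2⟩ := hξ
    obtain ⟨_, h3, h4⟩ := hξ'
    simp only at h1 h2 h3 h4
    have hmod : ξ % 2 ^ m' = ξ' % 2 ^ m' := by
      have h5 : (2 ^ m' : ℤ) ∣ ((ξ : ℤ) - ξ') := by
        have := dvd_sub h1 h3
        rwa [show (ξ : ℤ) - ξ₁ + Q - ((ξ' : ℤ) - ξ₁ + Q) = (ξ : ℤ) - ξ' by ring] at this
      have h6 : ((ξ : ℤ)) ≡ ξ' [ZMOD (2 ^ m' : ℕ)] := by
        rw [Int.modEq_iff_dvd]
        have := dvd_neg.2 h5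
        rwa [neg_sub, ← Nat.cast_ofNat, ← Nat.cast_pow] at this
      exact (Int.natCast_modEq_iff.1 h6)
    have h7 := Nat.mod_add_div ξ (2 ^ m')
    have h8 := Nat.mod_add_div ξ' (2 ^ m')
    rw [hmod, ← h2] at h7
    rw [← h4] at h8
    omega

/-- Digits of two numbers with the same low part and the same high part agree outside the middle. -/
lemma testBit_eq_of_key {x₁ x₂ a m j : ℕ} (h1 : x₁ % 2 ^ a = x₂ % 2 ^ a)
    (h2 : x₁ / 2 ^ (a + m) = x₂ / 2 ^ (a + m)) (hj : j < a ∨ a + m ≤ j) :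
    x₁.testBit j = x₂.testBit j := by
  rcases hj with hj | hj
  · have h3 := congrArg (fun z => z.testBit j) h1
    simp only [Nat.testBit_mod_two_pow, decide_eq_true hj, Bool.true_and] at h3
    exact h3
  · have h3 := congrArg (fun z => z.testBit (j - (a + m))) h2
    simp only [Nat.testBit_div_two_pow] at h3
    rwa [show j - (a + m) + (a + m) = j by omega] at h3

/-- The decomposition of a number into its low part, middle part and high part. -/
lemma decomp_key (x a m : ℕ) :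
    x = (x % 2 ^ a + 2 ^ (a + m) * (x / 2 ^ (a + m))) + 2 ^ a * ((x / 2 ^ a) % 2 ^ m) := by
  have h1 := Nat.mod_add_div x (2 ^ a)
  have h2 := Nat.mod_add_div (x / 2 ^ a) (2 ^ m)
  have h3 : x / 2 ^ a / 2 ^ m = x / 2 ^ (a + m) := by
    rw [Nat.div_div_eq_div_mul, pow_add]
  rw [h3] at h2
  calc x = x % 2 ^ a + 2 ^ a * (x / 2 ^ a) := h1.symm
    _ = x % 2 ^ a + 2 ^ a * ((x / 2 ^ a) % 2 ^ m + 2 ^ m * (x / 2 ^ (a + m))) := by rw [h2]
    _ = _ := by rw [pow_add]; ring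

end Vale.Agent.Lib.P338
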