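import Vale.Agent.Lib.P338.Defs

/-!
Basic facts about runs of machines.
-/

namespace Vale.Agent.Lib.P338

variable {k : ℕ} {M : Machine k}

lemma run_succ (ι : ℕ → Option (Bool × Bool)) (c₀ : Config M) (t : ℕ) :
    run M ι c₀ (t + 1) = (run M ι c₀ t).step M ι := rfl

lemma pos_step_le (ι : ℕ → Option (Bool × Bool)) (c : Config M) :
    c.pos ≤ (c.step M ι).pos := by
  simp only [Config.step]
  omega

lemma pos_step_le_succ (ι : ℕ → Option (Bool × Bool)) (c : Config M) :
    (c.step M ι).pos ≤ c.pos + 1 := by
  simp only [Config.step]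
  split_ifs <;> omega

lemma pos_mono (ι : ℕ → Option (Bool × Bool)) (c₀ : Config M) {s t : ℕ} (h : s ≤ t) :
    (run M ι c₀ s).pos ≤ (run M ι c₀ t).pos := by
  induction h with
  | refl => exact le_refl _
  | step _ ih => exact ih.trans (pos_step_le _ _)

lemma head_step (ι : ℕ → Option (Bool × Bool)) (c : Config M) (i : Fin k) :
    |(c.step M ι).head i - c.head i| ≤ 1 := by
  simp only [Config.step]
  cases M.move c.state (fun i => c.tape i (c.head i)) (ι c.pos) i <;> simp [Move.toInt]

lemma tape_step_of_ne (ι : ℕ → Option (Bool × Bool)) (c : Config M) (i : Fin k) {z : ℤ}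
    (hz : z ≠ c.head i) : (c.step M ι).tape i z = c.tape i z := by
  simp only [Config.step]
  exact Function.update_of_ne hz _ _

lemma tape_run_of_not_visited (ι : ℕ → Option (Bool × Bool)) (c₀ : Config M) (i : Fin k) {z : ℤ}
    {s t : ℕ} (hst : s ≤ t) (hz : ∀ u, s ≤ u → u < t → (run M ι c₀ u).head i ≠ z) :
    (run M ι c₀ t).tape i z = (run M ι c₀ s).tape i z := by
  induction hst with
  | refl => rfl
  | step h ih =>
    rw [run_succ, tape_step_of_ne]
    · exact ih (fun u hu hu' => hz u hu (by omega))
    · exact fun h' => hz _ h (by omega) h'.symm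

lemma out_step (ι : ℕ → Option (Bool × Bool)) (c : Config M) :
    ∃ w : List Bool, (c.step M ι).out = c.out ++ w ∧ w.length ≤ 1 := by
  simp only [Config.step]
  refine ⟨_, rfl, ?_⟩
  cases M.emit c.state (fun i => c.tape i (c.head i)) (ι c.pos) <;> simp

lemma out_prefix (ι : ℕ → Option (Bool × Bool)) (c₀ : Config M) {s t : ℕ} (h : s ≤ t) :
    ∃ w : List Bool, (run M ι c₀ t).out = (run M ι c₀ s).out ++ w := by
  induction h with
  | refl => exact ⟨[], by simp⟩
  | step _ ih =>
    obtain ⟨w, hw⟩ := ih
    obtain ⟨w', hw', _⟩ := out_step ι (run M ι c₀ _)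
    exact ⟨w ++ w', by rw [run_succ, hw', hw, List.append_assoc]⟩

lemma out_length_le (ι : ℕ → Option (Bool × Bool)) (c₀ : Config M) (t : ℕ) :
    (run M ι c₀ t).out.length ≤ c₀.out.length + t := by
  induction t with
  | zero => simp [run]
  | succ t ih =>
    obtain ⟨w', hw', hl⟩ := out_step ι (run M ι c₀ t)
    rw [run_succ, hw', List.length_append]
    omega

lemma abs_head_le (ι : ℕ → Option (Bool × Bool)) (c₀ : Config M) (i : Fin k) (hc : c₀.head i = 0)
    (t : ℕ) : |(run M ι c₀ t).head i| ≤ t := by
  induction t with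
  | zero => simp [run, hc]
  | succ t ih =>
    have h := head_step ι (run M ι c₀ t) i
    rw [run_succ]
    have h3 := abs_le.1 h
    have h4 := abs_le.1 ih
    rw [abs_le]
    push_cast
    constructor <;> linarith [h3.1, h3.2, h4.1, h4.2]

/-- Two runs agree as long as they only see positions where the streams agree. -/
lemma run_congr_of_agree {ι ι' : ℕ → Option (Bool × Bool)} {c₀ : Config M} {t : ℕ}
    (h : ∀ u, u < t → ι (run M ι c₀ u).pos = ι' (run M ι c₀ u).pos) :
    run M ι c₀ t = run M ι' c₀ t := by
  induction t with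
  | zero => rfl
  | succ t ih =>
    have ih' := ih (fun u hu => h u (by omega))
    have hh := h t (by omega)
    rw [run_succ, run_succ, ← ih']
    simp only [Config.step, hh]

/-- The first time the input head reaches position `a`. -/
noncomputable def firstTime (ι : ℕ → Option (Bool × Bool)) (c₀ : Config M) (a : ℕ)
    (h : ∃ t, a ≤ (run M ι c₀ t).pos) : ℕ := by
  classical exact Nat.find h

end Vale.Agent.Lib.P338
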