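import Vale.Agent.Lib.P338.Sig

/-!
Counting: for each split, at least half of the inputs have a large overlap.
-/

namespace Vale.Agent.Lib.P338

variable {k : ℕ} {M : Machine k}

/-- Among inputs with the same low and high parts, same signature and small overlaps, the middle
parts lie in few residue classes. -/
lemma fiber_sig_card {tapes : ℕ → Fin k → ℤ → M.Γ} {n D T y a m v R Y' : ℕ}
    (hM : MultipliesWithLookahead M tapes n D T)
    (hy : y < 2 ^ n) (hodd : y % 2 = 1)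
    (hsplit : y = R + 2 ^ m + 2 ^ (2 * m) * Y')
    (hm : 1 ≤ m) (hD : D ≤ m) (han : a + 2 * m ≤ n)
    (X : Finset ℕ) (b₁ b₂ : ℕ) (σ : SigT M v)
    (hX : ∀ x ∈ X, x < 2 ^ n ∧ x % 2 ^ a = b₁ ∧ x / 2 ^ (a + m) = b₂ ∧
      sigOf tapes n y T a m v x = σ ∧ ∀ i, (ovl tapes n y T a m x i).card < v) :
    X.card ≤ (2 * R + 1) * 2 ^ D := by
  classical
  rcases X.eq_empty_or_nonempty with h0 | ⟨x₁, hx₁⟩
  · simp [h0]
  obtain ⟨h1, h2, h3, h4, h5⟩ := hX x₁ hx₁
  set mid : ℕ → ℕ := fun x => (x / 2 ^ a) % 2 ^ m with hmid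
  have hinj : Set.InjOn mid X := by
    intro x hx x' hx' he
    obtain ⟨_, h6, h7, _, _⟩ := hX x hx
    obtain ⟨_, h8, h9, _, _⟩ := hX x' hx'
    have e1 := decomp_key x a m
    have e2 := decomp_key x' a m
    have he' : (x / 2 ^ a) % 2 ^ m = (x' / 2 ^ a) % 2 ^ m := he
    rw [e1, e2, h6, h7, h8, h9, he']
  rw [← Finset.card_image_of_injOn hinj]
  have := card_window_le (m := m) (m' := m - D) (ξ₁ := mid x₁) (R := R) (by omega)
    (X.image mid) ?_
  · rwa [show m - (m - D) = D by omega] at this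
  · intro ξ hξ
    obtain ⟨x, hx, rfl⟩ := Finset.mem_image.1 hξ
    obtain ⟨hx1, h6, h7, h8, _⟩ := hX x hx
    refine ⟨Nat.mod_lt _ (by positivity), ?_⟩
    apply window_congruence (a := a) (w := x₁ % 2 ^ a + 2 ^ (a + m) * (x₁ / 2 ^ (a + m)))
      (ξ₁ := mid x₁) (ξ₂ := mid x) hsplit (by omega) (Nat.mod_lt _ (by positivity))
      (Nat.mod_lt _ (by positivity))
    intro j hj1 hj2
    have e1 : x₁ % 2 ^ a + 2 ^ (a + m) * (x₁ / 2 ^ (a + m)) + 2 ^ a * mid x₁ = x₁ :=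
      (decomp_key x₁ a m).symm
    have e2 : x₁ % 2 ^ a + 2 ^ (a + m) * (x₁ / 2 ^ (a + m)) + 2 ^ a * mid x = x := by
      rw [h2, h3, ← h6, ← h7]
      exact (decomp_key x a m).symm
    rw [e1, e2]
    exact window_bits hM h1 hx1 hy hodd hm han (h2.trans h6.symm) (h3.trans h7.symm)
      (sameSig_of_sig_eq (h4.trans h8.symm) h5) hj1 (by omega)

/-- The set of inputs with small overlaps at a split. -/
noncomputable def smallSet (tapes : ℕ → Fin k → ℤ → M.Γ) (n y T a m v : ℕ) : Finset ℕ := by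
  classical exact (Finset.range (2 ^ n)).filter fun x => ∀ i, (ovl tapes n y T a m x i).card < v

lemma mem_smallSet {tapes : ℕ → Fin k → ℤ → M.Γ} {n y T a m v x : ℕ} :
    x ∈ smallSet tapes n y T a m v ↔
      x < 2 ^ n ∧ ∀ i, (ovl tapes n y T a m x i).card < v := by
  classical
  simp only [smallSet, Finset.mem_filter, Finset.mem_range]

/-- The signatures of all inputs lie in the space of signatures. -/
lemma sigOf_mem {tapes : ℕ → Fin k → ℤ → M.Γ} {n D T y a m v x : ℕ}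
    (hM : MultipliesWithLookahead M tapes n D T) (hx : x < 2 ^ n) (hy : y < 2 ^ n)
    (hodd : y % 2 = 1) (hb : a + m < n) {P : Finset (SigT M v)}
    (hP : ∀ q (hd : Fin k → ℤ) (e : ℕ) (lo hi : Fin k → ℤ) (ct : Fin k → Fin v → M.Γ),
      (∀ i, |hd i| ≤ T + 1) → e ≤ T → (∀ i, |lo i| ≤ T + 1) → (∀ i, |hi i| ≤ T + 1) →
      (q, hd, e, lo, hi, ct) ∈ P) :
    sigOf tapes n y T a m v x ∈ P := by
  have hs := firstT_lt hM hx hy hodd hb
  apply hP
  · intro i
    have h1 := abs_head_le (digitStream n x y) (initial M (tapes y)) i rfl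
      (firstT (rn M tapes n x y) (a + m))
    have h2 : ((firstT (rn M tapes n x y) (a + m) : ℕ) : ℤ) ≤ T := by exact_mod_cast hs.le
    linarith
  · have h1 := out_length_le (digitStream n x y) (initial M (tapes y))
      (firstT (rn M tapes n x y) (a + m))
    simp only [initial, List.length_nil, zero_add] at h1
    exact h1.trans hs.le
  · intro i
    exact lo_abs fun z hz => mem_overlap_abs hz
  · intro i
    exact hi_abs fun z hz => mem_overlap_abs hz

/-- The count of inputs with small overlaps at a split. -/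
theorem small_card {tapes : ℕ → Fin k → ℤ → M.Γ} {n D T y a m v R Y' : ℕ}
    (hM : MultipliesWithLookahead M tapes n D T)
    (hy : y < 2 ^ n) (hodd : y % 2 = 1)
    (hsplit : y = R + 2 ^ m + 2 ^ (2 * m) * Y')
    (hm : 1 ≤ m) (hD : D ≤ m) (han : a + 2 * m ≤ n) {P : Finset (SigT M v)}
    (hP : ∀ q (hd : Fin k → ℤ) (e : ℕ) (lo hi : Fin k → ℤ) (ct : Fin k → Fin v → M.Γ),
      (∀ i, |hd i| ≤ T + 1) → e ≤ T → (∀ i, |lo i| ≤ T + 1) → (∀ i, |hi i| ≤ T + 1) →
      (q, hd, e, lo, hi, ct) ∈ P) :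
    (smallSet tapes n y T a m v).card ≤ (2 * R + 1) * 2 ^ D * P.card * 2 ^ (n - m) := by
  classical
  set S := smallSet tapes n y T a m v with hS
  set f : ℕ → ℕ × ℕ := fun x => (x % 2 ^ a, x / 2 ^ (a + m)) with hf
  set K := Finset.range (2 ^ a) ×ˢ Finset.range (2 ^ (n - (a + m))) with hK
  have hKcard : K.card = 2 ^ (n - m) := by
    rw [hK, Finset.card_product, Finset.card_range, Finset.card_range, ← pow_add]
    congr 1
    omega
  rw [← hKcard]
  apply Finset.card_le_mul_card_image_of_maps_to (f := f)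
  · intro x hx
    have hx' := (mem_smallSet.1 hx).1
    refine Finset.mem_product.2 ⟨Finset.mem_range.2 (Nat.mod_lt _ (by positivity)),
      Finset.mem_range.2 ?_⟩
    apply Nat.div_lt_of_lt_mul
    rw [← pow_add]
    rwa [show a + m + (n - (a + m)) = n by omega]
  · rintro ⟨b₁, b₂⟩ _
    apply Finset.card_le_mul_card_image_of_maps_to (f := sigOf tapes n y T a m v)
    · intro x hx
      have hx' := Finset.mem_filter.1 hx
      exact sigOf_mem hM (mem_smallSet.1 hx'.1).1 hy hodd (by omega) hP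
    · intro σ _
      apply fiber_sig_card (b₁ := b₁) (b₂ := b₂) (σ := σ) hM hy hodd hsplit hm hD han
      intro x hx
      obtain ⟨h1, h2⟩ := Finset.mem_filter.1 hx
      obtain ⟨h3, h4⟩ := Finset.mem_filter.1 h1
      obtain ⟨h5, h6⟩ := mem_smallSet.1 h3
      simp only [hf, Prod.mk.injEq] at h4
      exact ⟨h5, h4.1, h4.2, h2, h6⟩

/-- The number of signatures. -/
def sigCount (M : Machine k) (T v : ℕ) : ℕ :=
  @Fintype.card M.Q M.fintypeQ * ((2 * T + 3) ^ k * ((T + 1) * ((2 * T + 3) ^ k *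
      ((2 * T + 3) ^ k * (@Fintype.card M.Γ M.fintypeΓ ^ v) ^ k))))

/-- The overlap sum at one split is large on average. -/
theorem level_sum {tapes : ℕ → Fin k → ℤ → M.Γ} {n D T ℓ i' v : ℕ}
    (hM : MultipliesWithLookahead M tapes n D T) (hℓ : 1 ≤ ℓ) (hi : i' < n / 2 ^ (ℓ + 1))
    (hD : D ≤ 2 ^ ℓ)
    (hnum : 2 ^ D * sigCount M T v * 2 ^ (2 ^ (ℓ - 1) + 3) ≤ 2 ^ (2 ^ ℓ)) :
    v * 2 ^ n ≤ 2 * ∑ x ∈ Finset.range (2 ^ n), ∑ i : Fin k,
      (ovl tapes n (hardY n) T (i' * 2 ^ (ℓ + 1)) (2 ^ ℓ) x i).card := by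
  classical
  set a := i' * 2 ^ (ℓ + 1) with ha
  set m := 2 ^ ℓ with hm
  have hmpos : 1 ≤ m := Nat.one_le_two_pow
  have h2m : 2 ^ (ℓ + 1) = 2 * m := by rw [pow_succ, hm]; ring
  have hle : (i' + 1) * 2 ^ (ℓ + 1) ≤ n := by
    have h1 : i' + 1 ≤ n / 2 ^ (ℓ + 1) := hi
    exact (Nat.le_div_iff_mul_le (by positivity)).1 h1
  have han : a + 2 * m ≤ n := by
    rw [ha, ← h2m]
    have : (i' + 1) * 2 ^ (ℓ + 1) = i' * 2 ^ (ℓ + 1) + 2 ^ (ℓ + 1) := by ring
    omega
  have hn1 : 1 ≤ n := by omega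
  have h2mn : 2 * 2 ^ ℓ ≤ n := by
    have h3 : 2 * m ≤ a + 2 * m := by omega
    exact h3.trans han
  obtain ⟨R, Y', hsplit, hR⟩ := hardY_split hℓ h2mn
  obtain ⟨P, hP, hPcard⟩ := sig_space M T v
  have hsmall := small_card (n := n) (D := D) (T := T) (a := a) (m := m) (v := v) (R := R)
    (Y' := Y') hM (hardY_lt n) (hardY_odd hn1) hsplit hmpos hD (by omega) hP
  set S := smallSet tapes n (hardY n) T a m v with hS
  -- half of all inputs are outside
  have hfib : 2 * R + 1 ≤ 2 ^ (2 ^ (ℓ - 1) + 2) := by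
    have : 2 ^ (2 ^ (ℓ - 1) + 2) = 2 * 2 ^ (2 ^ (ℓ - 1) + 1) := by rw [pow_succ]; ring
    omega
  have hhalf : 2 * S.card ≤ 2 ^ n := by
    have hPc : P.card = sigCount M T v := hPcard
    calc 2 * S.card ≤ 2 * ((2 * R + 1) * 2 ^ D * P.card * 2 ^ (n - m)) := by omega
      _ ≤ 2 * (2 ^ (2 ^ (ℓ - 1) + 2) * 2 ^ D * P.card * 2 ^ (n - m)) := by gcongr
      _ = (2 ^ D * P.card * 2 ^ (2 ^ (ℓ - 1) + 3)) * 2 ^ (n - m) := by
          rw [show 2 ^ (ℓ - 1) + 3 = (2 ^ (ℓ - 1) + 2) + 1 by omega, pow_succ]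
          ring
      _ ≤ 2 ^ m * 2 ^ (n - m) := by
          rw [hPc]
          exact Nat.mul_le_mul_right _ hnum
      _ = 2 ^ n := by
          rw [← pow_add]
          congr 1
          omega
  -- the inputs outside have a large overlap
  set U := Finset.range (2 ^ n) with hU
  have hSU : S ⊆ U := fun x hx => Finset.mem_range.2 (mem_smallSet.1 hx).1
  have hcardsd : (U \ S).card + S.card = 2 ^ n := by
    rw [Finset.card_sdiff_add_card_eq_card hSU, hU, Finset.card_range]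
  have hlarge : (U \ S).card * v ≤ ∑ x ∈ U, ∑ i : Fin k, (ovl tapes n (hardY n) T a m x i).card := by
    calc (U \ S).card * v = ∑ _x ∈ U \ S, v := by simp
      _ ≤ ∑ x ∈ U \ S, ∑ i : Fin k, (ovl tapes n (hardY n) T a m x i).card := by
          apply Finset.sum_le_sum
          intro x hx
          obtain ⟨h1, h2⟩ := Finset.mem_sdiff.1 hx
          have h3 : ¬ ∀ i, (ovl tapes n (hardY n) T a m x i).card < v := fun h =>
            h2 (mem_smallSet.2 ⟨Finset.mem_range.1 h1, h⟩)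
          push Not at h3
          obtain ⟨i, hi⟩ := h3
          exact hi.trans (Finset.single_le_sum
            (f := fun i => (ovl tapes n (hardY n) T a m x i).card)
            (fun _ _ => Nat.zero_le _) (Finset.mem_univ i))
      _ ≤ _ := Finset.sum_le_sum_of_subset_of_nonneg Finset.sdiff_subset
          (fun _ _ _ => Nat.zero_le _)
  have h2U : 2 ^ n ≤ 2 * (U \ S).card := by omega
  calc v * 2 ^ n ≤ v * (2 * (U \ S).card) := Nat.mul_le_mul_left _ h2U
    _ = 2 * ((U \ S).card * v) := by ring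
    _ ≤ _ := Nat.mul_le_mul_left _ hlarge

/-- The total of the overlap sums over all splits. -/
theorem total_bound {tapes : ℕ → Fin k → ℤ → M.Γ} {n D T : ℕ}
    (hM : MultipliesWithLookahead M tapes n D T) (Ls : Finset ℕ) (v : ℕ → ℕ)
    (hLs : ∀ ℓ ∈ Ls, 1 ≤ ℓ ∧ D ≤ 2 ^ ℓ ∧
      2 ^ D * sigCount M T (v ℓ) * 2 ^ (2 ^ (ℓ - 1) + 3) ≤ 2 ^ (2 ^ ℓ)) :
    ∑ ℓ ∈ Ls, (n / 2 ^ (ℓ + 1)) * v ℓ ≤ 2 * (k * T) := by
  classical
  have h2n : 0 < 2 ^ n := by positivity
  apply Nat.le_of_mul_le_mul_right _ h2n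
  calc (∑ ℓ ∈ Ls, (n / 2 ^ (ℓ + 1)) * v ℓ) * 2 ^ n
      = ∑ ℓ ∈ Ls, ∑ _i' ∈ Finset.range (n / 2 ^ (ℓ + 1)), v ℓ * 2 ^ n := by
        rw [Finset.sum_mul]
        refine Finset.sum_congr rfl fun ℓ _ => ?_
        simp only [Finset.sum_const, Finset.card_range, smul_eq_mul]
        ring
    _ ≤ ∑ ℓ ∈ Ls, ∑ i' ∈ Finset.range (n / 2 ^ (ℓ + 1)),
        (2 * ∑ x ∈ Finset.range (2 ^ n), ∑ i : Fin k,
          (ovl tapes n (hardY n) T (i' * 2 ^ (ℓ + 1)) (2 ^ ℓ) x i).card) := by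
        refine Finset.sum_le_sum fun ℓ hℓ => Finset.sum_le_sum fun i' hi' => ?_
        obtain ⟨h1, h2, h3⟩ := hLs ℓ hℓ
        exact level_sum hM h1 (Finset.mem_range.1 hi') h2 h3
    _ = 2 * ∑ x ∈ Finset.range (2 ^ n), ∑ i : Fin k, ∑ ℓ ∈ Ls,
        ∑ i' ∈ Finset.range (n / 2 ^ (ℓ + 1)),
          (ovl tapes n (hardY n) T (i' * 2 ^ (ℓ + 1)) (2 ^ ℓ) x i).card := by
        simp only [← Finset.mul_sum]
        congr 1
        have h1 : ∀ ℓ, ∑ i' ∈ Finset.range (n / 2 ^ (ℓ + 1)),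
            ∑ x ∈ Finset.range (2 ^ n), ∑ i : Fin k,
              (ovl tapes n (hardY n) T (i' * 2 ^ (ℓ + 1)) (2 ^ ℓ) x i).card =
            ∑ x ∈ Finset.range (2 ^ n), ∑ i : Fin k, ∑ i' ∈ Finset.range (n / 2 ^ (ℓ + 1)),
              (ovl tapes n (hardY n) T (i' * 2 ^ (ℓ + 1)) (2 ^ ℓ) x i).card := by
          intro ℓ
          rw [Finset.sum_comm]
          refine Finset.sum_congr rfl fun x _ => ?_
          rw [Finset.sum_comm]
        simp only [h1]
        rw [Finset.sum_comm]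
        refine Finset.sum_congr rfl fun x _ => ?_
        rw [Finset.sum_comm]
    _ ≤ 2 * ∑ _x ∈ Finset.range (2 ^ n), ∑ _i : Fin k, T := by
        apply Nat.mul_le_mul_left
        refine Finset.sum_le_sum fun x _ => Finset.sum_le_sum fun i _ => ?_
        exact sum_overlap_le _ _ T n (ps_mono _ _) Ls
    _ = 2 * (k * T) * 2 ^ n := by
        simp only [Finset.sum_const, Finset.card_range, Finset.card_univ, Fintype.card_fin,
          smul_eq_mul]
        ring

end Vale.Agent.Lib.P338
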