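import Vale.Agent.Lib.P338.Overlap

/-!
Decoding: what a run does while the input position is in `[a + m, a + 2 m)` depends only on a small
signature of the configuration at the first time the input position reaches `a + m`.
-/

namespace Vale.Agent.Lib.P338

variable {k : ℕ} {M : Machine k}

/-- The head positions of one tape along a run. -/
def hd (c : ℕ → Config M) (i : Fin k) : ℕ → ℤ := fun t => (c t).head i

/-- The input positions along a run. -/
def ps (c : ℕ → Config M) : ℕ → ℕ := fun t => (c t).pos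

/-- The invariant of two runs in step after the split. -/
structure SyncInv (c1 c2 : ℕ → Config M) (s1 s2 u : ℕ) : Prop where
  state : (c1 (s1 + u)).state = (c2 (s2 + u)).state
  pos : (c1 (s1 + u)).pos = (c2 (s2 + u)).pos
  head : ∀ i u', u' ≤ u → (c1 (s1 + u')).head i = (c2 (s2 + u')).head i
  out : ∃ w : List Bool, (c1 (s1 + u)).out = (c1 s1).out ++ w ∧ (c2 (s2 + u)).out = (c2 s2).out ++ w
  tape : ∀ i z, (∃ u', u' < u ∧ (c1 (s1 + u')).head i = z) →
    (c1 (s1 + u)).tape i z = (c2 (s2 + u)).tape i z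

theorem decode_sync {ι₁ ι₂ : ℕ → Option (Bool × Bool)} {c₀ : Config M} {T a m τ s1 s2 : ℕ}
    (hpre : ∀ p, p < a → ι₁ p = ι₂ p) (hpost : ∀ p, a + m ≤ p → ι₁ p = ι₂ p)
    (hτ : a ≤ (run M ι₁ c₀ τ).pos) (hτmin : ∀ u, u < τ → (run M ι₁ c₀ u).pos < a)
    (hs1 : a + m ≤ (run M ι₁ c₀ s1).pos) (hs1min : ∀ u, u < s1 → (run M ι₁ c₀ u).pos < a + m)
    (hs2 : a + m ≤ (run M ι₂ c₀ s2).pos) (hs2min : ∀ u, u < s2 → (run M ι₂ c₀ u).pos < a + m)
    (hs1T : s1 ≤ T) (hs2T : s2 ≤ T)
    (hstate : (run M ι₁ c₀ s1).state = (run M ι₂ c₀ s2).state)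
    (hpos : (run M ι₁ c₀ s1).pos = (run M ι₂ c₀ s2).pos)
    (hhead : ∀ i, (run M ι₁ c₀ s1).head i = (run M ι₂ c₀ s2).head i)
    (hS : ∀ i z, z ∈ overlap (hd (run M ι₁ c₀) i) (ps (run M ι₁ c₀)) T a m ↔
      z ∈ overlap (hd (run M ι₂ c₀) i) (ps (run M ι₂ c₀)) T a m)
    (htape : ∀ i z, z ∈ overlap (hd (run M ι₁ c₀) i) (ps (run M ι₁ c₀)) T a m →
      (run M ι₁ c₀ s1).tape i z = (run M ι₂ c₀ s2).tape i z) :
    ∀ u, (∀ u', u' < u → s1 + u' < T ∧ s2 + u' < T ∧ (run M ι₁ c₀ (s1 + u')).pos < a + 2 * m) →
      SyncInv (run M ι₁ c₀) (run M ι₂ c₀) s1 s2 u := by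
  -- the common prefix
  have hprefix : ∀ t, t ≤ τ → run M ι₁ c₀ t = run M ι₂ c₀ t := by
    intro t ht
    apply run_congr_of_agree
    intro u hu
    exact hpre _ (hτmin u (by omega))
  have hτ2 : a ≤ (run M ι₂ c₀ τ).pos := by rw [← hprefix τ le_rfl]; exact hτ
  have hτs1 : τ ≤ s1 := by
    by_contra hc
    have := hτmin s1 (by omega)
    omega
  have hτs2 : τ ≤ s2 := by
    by_contra hc
    have h1 := hτmin s2 (by omega)
    rw [hprefix s2 (by omega)] at h1
    omega
  intro u
  induction u with
  | zero =>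
    intro _
    refine ⟨hstate, hpos, ?_, ⟨[], by simp, by simp⟩, ?_⟩
    · intro i u' hu'
      have : u' = 0 := by omega
      subst this
      exact hhead i
    · rintro i z ⟨u', hu', _⟩
      omega
  | succ u ih =>
    intro hu
    have hinv := ih (fun u' hu' => hu u' (by omega))
    obtain ⟨hT1, hT2, hb⟩ := hu u (by omega)
    have hsymb : ∀ i, (run M ι₁ c₀ (s1 + u)).tape i ((run M ι₁ c₀ (s1 + u)).head i) =
        (run M ι₂ c₀ (s2 + u)).tape i ((run M ι₂ c₀ (s2 + u)).head i) := by
      intro i
      rw [← hinv.head i u le_rfl]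
      set z := (run M ι₁ c₀ (s1 + u)).head i with hz
      by_cases hvis : ∃ u', u' < u ∧ (run M ι₁ c₀ (s1 + u')).head i = z
      · exact hinv.tape i z hvis
      · -- the cell was not visited since the split
        have hnot : ∀ u', u' < u → (run M ι₁ c₀ (s1 + u')).head i ≠ z :=
          fun u' hu' he => hvis ⟨u', hu', he⟩
        have hnot2 : ∀ u', u' < u → (run M ι₂ c₀ (s2 + u')).head i ≠ z := by
          intro u' hu' he
          exact hnot u' hu' (by rw [hinv.head i u' (by omega)]; exact he)
        have e1 : (run M ι₁ c₀ (s1 + u)).tape i z = (run M ι₁ c₀ s1).tape i z := by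
          apply tape_run_of_not_visited _ _ _ (by omega)
          intro v hv hv'
          have := hnot (v - s1) (by omega)
          rwa [show s1 + (v - s1) = v by omega] at this
        have e2 : (run M ι₂ c₀ (s2 + u)).tape i z = (run M ι₂ c₀ s2).tape i z := by
          apply tape_run_of_not_visited _ _ _ (by omega)
          intro v hv hv'
          have := hnot2 (v - s2) (by omega)
          rwa [show s2 + (v - s2) = v by omega] at this
        rw [e1, e2]
        -- the cell is visited after the split in both runs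
        have hJ1 : z ∈ visited (hd (run M ι₁ c₀) i) (ps (run M ι₁ c₀)) T (a + m) (a + 2 * m) := by
          refine mem_visited.2 ⟨s1 + u, hT1, ?_, hb, rfl⟩
          exact hs1.trans (pos_mono _ _ (by omega))
        have hJ2 : z ∈ visited (hd (run M ι₂ c₀) i) (ps (run M ι₂ c₀)) T (a + m) (a + 2 * m) := by
          refine mem_visited.2 ⟨s2 + u, hT2, ?_, ?_, ?_⟩
          · exact hs2.trans (pos_mono _ _ (by omega))
          · show (run M ι₂ c₀ (s2 + u)).pos < _
            rw [← hinv.pos]; exact hb
          · show (run M ι₂ c₀ (s2 + u)).head i = z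
            rw [← hinv.head i u le_rfl]
        by_cases hI1 : z ∈ visited (hd (run M ι₁ c₀) i) (ps (run M ι₁ c₀)) T a (a + m)
        · exact htape i z (Finset.mem_inter.2 ⟨hI1, hJ1⟩)
        · have hI2 : z ∉ visited (hd (run M ι₂ c₀) i) (ps (run M ι₂ c₀)) T a (a + m) := by
            intro hI2
            have := (hS i z).2 (Finset.mem_inter.2 ⟨hI2, hJ2⟩)
            exact hI1 (Finset.mem_inter.1 this).1
          have f1 : (run M ι₁ c₀ s1).tape i z = (run M ι₁ c₀ τ).tape i z := by
            apply tape_run_of_not_visited _ _ _ hτs1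
            intro v hv hv' he
            refine hI1 (mem_visited.2 ⟨v, by omega, ?_, hs1min v hv', he⟩)
            exact hτ.trans (pos_mono _ _ hv)
          have f2 : (run M ι₂ c₀ s2).tape i z = (run M ι₂ c₀ τ).tape i z := by
            apply tape_run_of_not_visited _ _ _ hτs2
            intro v hv hv' he
            refine hI2 (mem_visited.2 ⟨v, by omega, ?_, hs2min v hv', he⟩)
            exact hτ2.trans (pos_mono _ _ hv)
          rw [f1, f2, hprefix τ le_rfl]
    have hsymf : (fun i => (run M ι₁ c₀ (s1 + u)).tape i ((run M ι₁ c₀ (s1 + u)).head i)) =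
        (fun i => (run M ι₂ c₀ (s2 + u)).tape i ((run M ι₂ c₀ (s2 + u)).head i)) :=
      funext hsymb
    have hinput : ι₁ (run M ι₁ c₀ (s1 + u)).pos = ι₂ (run M ι₂ c₀ (s2 + u)).pos := by
      rw [← hinv.pos]
      exact hpost _ (hs1.trans (pos_mono _ _ (by omega)))
    have hst := hinv.state
    have r1 : run M ι₁ c₀ (s1 + (u + 1)) = (run M ι₁ c₀ (s1 + u)).step M ι₁ := rfl
    have r2 : run M ι₂ c₀ (s2 + (u + 1)) = (run M ι₂ c₀ (s2 + u)).step M ι₂ := rfl
    refine ⟨?_, ?_, ?_, ?_, ?_⟩
    · rw [r1, r2]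
      simp only [Config.step]
      rw [hst, hsymf, hinput]
    · rw [r1, r2]
      simp only [Config.step]
      rw [hst, hsymf, hinput, hinv.pos]
    · intro i u' hu'
      rcases Nat.lt_or_ge u' (u + 1) with hlt | hge
      · exact hinv.head i u' (by omega)
      · have : u' = u + 1 := by omega
        subst this
        rw [r1, r2]
        simp only [Config.step]
        rw [hst, hsymf, hinput, hinv.head i u le_rfl]
    · obtain ⟨w, hw1, hw2⟩ := hinv.out
      refine ⟨w ++ (M.emit (run M ι₂ c₀ (s2 + u)).state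
        (fun i => (run M ι₂ c₀ (s2 + u)).tape i ((run M ι₂ c₀ (s2 + u)).head i))
        (ι₂ (run M ι₂ c₀ (s2 + u)).pos)).toList, ?_, ?_⟩
      · rw [r1]
        simp only [Config.step]
        rw [hst, hsymf, hinput, hw1, List.append_assoc]
      · rw [r2]
        simp only [Config.step]
        rw [hw2, List.append_assoc]
    · rintro i z ⟨u', hu', hz⟩
      rw [r1, r2]
      simp only [Config.step]
      rw [hst, hsymf, hinput, ← hinv.head i u le_rfl]
      by_cases hcur : z = (run M ι₁ c₀ (s1 + u)).head i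
      · rw [hcur, Function.update_self, Function.update_self]
      · rw [Function.update_of_ne hcur, Function.update_of_ne hcur]
        apply hinv.tape i z
        rcases Nat.lt_or_ge u' u with hlt | hge
        · exact ⟨u', hlt, hz⟩
        · have : u' = u := by omega
          subst this
          exact absurd hz.symm hcur

end Vale.Agent.Lib.P338
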