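import Mathlib

/-!
Multitape machines reading their input digit by digit, least significant digit first, and
emitting the digits of the product, least significant digit first.
-/

namespace Vale.Agent.Lib.P338

/-- A head move. -/
inductive Move where
  | left : Move
  | stay : Move
  | right : Move

/-- The displacement of a head move. -/
def Move.toInt : Move → ℤ
  | .left => -1
  | .stay => 0
  | .right => 1

/-- A deterministic machine with `k` work tapes (one head each, moving at most one cell per step),
a finite control, a one way input head and a one way output. At each step it sees its state, the
symbols under its work heads and the input digit pair under the input head (`none` after the end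
of the input). -/
structure Machine (k : ℕ) where
  Q : Type
  Γ : Type
  fintypeQ : Fintype Q
  fintypeΓ : Fintype Γ
  start : Q
  next : Q → (Fin k → Γ) → Option (Bool × Bool) → Q
  write : Q → (Fin k → Γ) → Option (Bool × Bool) → Fin k → Γ
  move : Q → (Fin k → Γ) → Option (Bool × Bool) → Fin k → Move
  advance : Q → (Fin k → Γ) → Option (Bool × Bool) → Bool
  emit : Q → (Fin k → Γ) → Option (Bool × Bool) → Option Bool

/-- A configuration: state, work tapes, work heads, number of input digits passed, output so far. -/
structure Config {k : ℕ} (M : Machine k) where
  state : M.Q
  tape : Fin k → ℤ → M.Γ
  head : Fin k → ℤ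
  pos : ℕ
  out : List Bool

variable {k : ℕ} (M : Machine k)

/-- One step on the input stream `ι`; the digit under the input head is `ι c.pos`. -/
def Config.step (ι : ℕ → Option (Bool × Bool)) (c : Config M) : Config M :=
  let s : Fin k → M.Γ := fun i => c.tape i (c.head i)
  { state := M.next c.state s (ι c.pos)
    tape := fun i => Function.update (c.tape i) (c.head i) (M.write c.state s (ι c.pos) i)
    head := fun i => c.head i + (M.move c.state s (ι c.pos) i).toInt
    pos := c.pos + (if M.advance c.state s (ι c.pos) then 1 else 0)
    out := c.out ++ (M.emit c.state s (ι c.pos)).toList }

/-- The configuration after `t` steps. -/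
def run (ι : ℕ → Option (Bool × Bool)) (c₀ : Config M) : ℕ → Config M
  | 0 => c₀
  | t + 1 => (run ι c₀ t).step M ι

/-- The initial configuration with given work tape contents. -/
def initial (tapes : Fin k → ℤ → M.Γ) : Config M :=
  ⟨M.start, tapes, fun _ => 0, 0, []⟩

/-- The input stream of `x` and `y` with `n` digits each, least significant digit first. -/
def digitStream (n x y : ℕ) : ℕ → Option (Bool × Bool) :=
  fun p => if p < n then some (x.testBit p, y.testBit p) else none

/-- The machine multiplies `n` digit numbers within `T` steps with lookahead `D`. The initial work
tape contents `tapes y` may depend on `y` (blank tapes are one choice). After `T` steps the output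
holds the `2 * n` digits of `x * y`, least significant first; and product digit `j < n` has been
emitted before the input head moves onto digit `j + D + 1`. For `D = 0` this is on-line
multiplication. -/
def MultipliesWithLookahead (tapes : ℕ → Fin k → ℤ → M.Γ) (n D T : ℕ) : Prop :=
  ∀ x y : ℕ, x < 2 ^ n → y < 2 ^ n →
    (∀ j, j < 2 * n →
      (run M (digitStream n x y) (initial M (tapes y)) T).out[j]? = some ((x * y).testBit j)) ∧
    (∀ t, t ≤ T → ∀ j, j < n → j + D + 1 ≤ (run M (digitStream n x y) (initial M (tapes y)) t).pos →
      j < (run M (digitStream n x y) (initial M (tapes y)) t).out.length)

end Vale.Agent.Lib.P338
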