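import Vale.Agent.Lib.P338.Count

/-!
The numerical side: the bound in natural numbers and the final real inequality.
-/

namespace Vale.Agent.Lib.P338

variable {k : ℕ} {M : Machine k}

/-- The constant of the machine controlling the tape alphabet. -/
def alphaC (M : Machine k) : ℕ := @Fintype.card M.Γ M.fintypeΓ * k + 1

/-- The polynomial in the time bound. -/
def polT (M : Machine k) (T : ℕ) : ℕ :=
  @Fintype.card M.Q M.fintypeQ * ((T + 1) * (2 * T + 3) ^ (3 * k))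

lemma sigCount_eq (T v : ℕ) :
    sigCount M T v = polT M T * (@Fintype.card M.Γ M.fintypeΓ ^ v) ^ k := by
  rw [sigCount, polT, show 3 * k = k + k + k by ring, pow_add, pow_add]
  ring

lemma level_num {D T ℓ : ℕ} (hℓ : 1 ≤ ℓ) (h8D : 8 * D ≤ 2 ^ ℓ) (h24 : 24 ≤ 2 ^ ℓ)
    (hPol : 8 * Nat.clog 2 (polT M T) ≤ 2 ^ ℓ) :
    2 ^ D * sigCount M T (2 ^ ℓ / (8 * alphaC M)) * 2 ^ (2 ^ (ℓ - 1) + 3) ≤ 2 ^ (2 ^ ℓ) := by
  set m := 2 ^ ℓ with hm
  have hhalf : m = 2 * 2 ^ (ℓ - 1) := by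
    rw [hm, ← pow_succ']
    congr 1
    omega
  set A := alphaC M with hA
  have hApos : 0 < A := by rw [hA, alphaC]; omega
  set v := m / (8 * A) with hv
  set G := @Fintype.card M.Γ M.fintypeΓ with hG
  have h1 : polT M T ≤ 2 ^ (m / 8) := by
    calc polT M T ≤ 2 ^ Nat.clog 2 (polT M T) := Nat.le_pow_clog (by norm_num) _
      _ ≤ 2 ^ (m / 8) := Nat.pow_le_pow_right (by norm_num) (by omega)
  have h2 : (G ^ v) ^ k ≤ 2 ^ (m / 8) := by
    have hvA : A * v ≤ m / 8 := by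
      have h3 : v * (8 * A) ≤ m := Nat.div_mul_le_self _ _
      have h4 : (A * v) * 8 ≤ m := by linarith [h3, mul_comm (A * v) 8, mul_assoc v 8 A]
      omega
    calc (G ^ v) ^ k = G ^ (v * k) := (pow_mul _ _ _).symm
      _ ≤ (2 ^ G) ^ (v * k) := Nat.pow_le_pow_left (Nat.lt_two_pow_self).le _
      _ = 2 ^ (G * (v * k)) := (pow_mul _ _ _).symm
      _ ≤ 2 ^ (m / 8) := by
          apply Nat.pow_le_pow_right (by norm_num)
          refine le_trans ?_ hvA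
          rw [hA, alphaC]
          nlinarith [Nat.zero_le v]
  rw [sigCount_eq]
  calc 2 ^ D * (polT M T * (G ^ v) ^ k) * 2 ^ (2 ^ (ℓ - 1) + 3)
      ≤ 2 ^ D * (2 ^ (m / 8) * 2 ^ (m / 8)) * 2 ^ (2 ^ (ℓ - 1) + 3) := by gcongr
    _ = 2 ^ (D + (m / 8 + m / 8) + (2 ^ (ℓ - 1) + 3)) := by ring
    _ ≤ 2 ^ m := Nat.pow_le_pow_right (by norm_num) (by omega)

lemma term_bound {n ℓ A : ℕ} (hA : 0 < A) (hn : 2 ^ (ℓ + 1) ≤ n) (hm : 8 * A ≤ 2 ^ ℓ) :
    n ≤ 64 * A * ((n / 2 ^ (ℓ + 1)) * (2 ^ ℓ / (8 * A))) := by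
  set b := 2 ^ (ℓ + 1) with hb
  set m := 2 ^ ℓ with hm'
  have hb2 : b = 2 * m := by rw [hb, hm', pow_succ]; ring
  have hmpos : 0 < m := by positivity
  set w := n / b with hw
  set v := m / (8 * A) with hv
  have h1 : n < (w + 1) * b := by
    have := Nat.lt_mul_div_succ n (show 0 < b by positivity)
    rw [mul_comm] at this
    exact this
  have h1' : 1 ≤ w := (Nat.one_le_div_iff (by positivity)).2 hn
  have h2 : m < (v + 1) * (8 * A) := by
    have := Nat.lt_mul_div_succ m (show 0 < 8 * A by positivity)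
    rw [mul_comm] at this
    exact this
  have h2' : 1 ≤ v := (Nat.one_le_div_iff (by positivity)).2 hm
  have h3 : n ≤ 2 * w * b := by nlinarith
  have h4 : m ≤ 2 * v * (8 * A) := by nlinarith
  have h5 : n * m ≤ (64 * A * (w * v)) * m := by
    calc n * m ≤ (2 * w * b) * (2 * v * (8 * A)) := Nat.mul_le_mul h3 h4
      _ = (64 * A * (w * v)) * m := by rw [hb2]; ring
  exact Nat.le_of_mul_le_mul_right h5 hmpos

/-- The bound in natural numbers. -/
theorem main_nat {tapes : ℕ → Fin k → ℤ → M.Γ} {n D T : ℕ}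
    (hM : MultipliesWithLookahead M tapes n D T) :
    n * (Nat.log 2 n - Nat.clog 2 (8 * D + 24 + 8 * alphaC M + 8 * Nat.clog 2 (polT M T))) ≤
      128 * alphaC M * (k * T) := by
  classical
  set m₀ := 8 * D + 24 + 8 * alphaC M + 8 * Nat.clog 2 (polT M T) with hm₀
  set A := alphaC M with hA
  have hApos : 0 < A := by rw [hA, alphaC]; omega
  set Ls := Finset.Ico (Nat.clog 2 m₀) (Nat.log 2 n) with hLs
  have hcard : Ls.card = Nat.log 2 n - Nat.clog 2 m₀ := by rw [hLs, Nat.card_Ico]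
  have hlevel : ∀ ℓ ∈ Ls, m₀ ≤ 2 ^ ℓ ∧ 2 ^ (ℓ + 1) ≤ n := by
    intro ℓ hℓ
    obtain ⟨h1, h2⟩ := Finset.mem_Ico.1 hℓ
    constructor
    · calc m₀ ≤ 2 ^ Nat.clog 2 m₀ := Nat.le_pow_clog (by norm_num) _
        _ ≤ 2 ^ ℓ := Nat.pow_le_pow_right (by norm_num) h1
    · have hn0 : n ≠ 0 := by
        rintro rfl
        simp at h2
      calc 2 ^ (ℓ + 1) ≤ 2 ^ Nat.log 2 n := Nat.pow_le_pow_right (by norm_num) h2
        _ ≤ n := Nat.pow_log_le_self 2 hn0
  have hl1 : ∀ ℓ ∈ Ls, 1 ≤ ℓ := by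
    intro ℓ hℓ
    by_contra hc
    have h0 : ℓ = 0 := by omega
    have := (hlevel ℓ hℓ).1
    rw [h0] at this
    omega
  have htot := total_bound hM Ls (fun ℓ => 2 ^ ℓ / (8 * A)) (by
    intro ℓ hℓ
    have h1 := (hlevel ℓ hℓ).1
    have h8 : 8 * D ≤ 2 ^ ℓ := by omega
    refine ⟨hl1 ℓ hℓ, by omega, ?_⟩
    exact level_num (hl1 ℓ hℓ) h8 (by omega) (by omega))
  rw [← hcard, mul_comm n]
  calc Ls.card * n = ∑ _ℓ ∈ Ls, n := by simp
    _ ≤ ∑ ℓ ∈ Ls, 64 * A * ((n / 2 ^ (ℓ + 1)) * (2 ^ ℓ / (8 * A))) := by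
        refine Finset.sum_le_sum fun ℓ hℓ => ?_
        obtain ⟨h1, h2⟩ := hlevel ℓ hℓ
        exact term_bound hApos h2 (by omega)
    _ = 64 * A * ∑ ℓ ∈ Ls, (n / 2 ^ (ℓ + 1)) * (2 ^ ℓ / (8 * A)) := by rw [Finset.mul_sum]
    _ ≤ 64 * A * (2 * (k * T)) := Nat.mul_le_mul_left _ htot
    _ = 128 * A * (k * T) := by ring

/-- The output needs at least one step per digit. -/
lemma two_n_le_T {tapes : ℕ → Fin k → ℤ → M.Γ} {n D T : ℕ}
    (hM : MultipliesWithLookahead M tapes n D T) : 2 * n ≤ T := by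
  have h1 := spec_length (x := 0) (y := 0) hM (by positivity) (by positivity)
  have h2 := out_length_le (digitStream n 0 0) (initial M (tapes 0)) T
  simp only [initial, List.length_nil, zero_add] at h2
  exact h1.trans h2

lemma clog_le_logb {x : ℕ} (hx : 1 ≤ x) : (Nat.clog 2 x : ℝ) ≤ Real.logb 2 x + 1 := by
  rcases Nat.lt_or_ge 1 x with h1 | h1
  · have h2 := Nat.pow_pred_clog_lt_self (b := 2) (by norm_num) h1
    have h3 : ((2 : ℝ) ^ (Nat.clog 2 x - 1 : ℕ)) < x := by exact_mod_cast h2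
    have h4 : ((Nat.clog 2 x - 1 : ℕ) : ℝ) < Real.logb 2 x := by
      rw [Real.lt_logb_iff_rpow_lt (by norm_num) (by positivity)]
      rw [Real.rpow_natCast]
      exact h3
    have h5 : (Nat.clog 2 x : ℝ) ≤ ((Nat.clog 2 x - 1 : ℕ) : ℝ) + 1 := by
      have : Nat.clog 2 x ≤ (Nat.clog 2 x - 1) + 1 := by omega
      exact_mod_cast this
    linarith
  · have h2 : x = 1 := by omega
    subst h2
    simp

lemma logb_le_log_succ {n : ℕ} (hn : 1 ≤ n) : Real.logb 2 n < (Nat.log 2 n : ℝ) + 1 := by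
  have h1 := Nat.lt_pow_succ_log_self (b := 2) (by norm_num) n
  have h2 : (n : ℝ) < (2 : ℝ) ^ (Nat.log 2 n + 1) := by exact_mod_cast h1
  rw [Real.logb_lt_iff_lt_rpow (by norm_num) (by positivity)]
  have h3 : ((Nat.log 2 n : ℝ) + 1) = ((Nat.log 2 n + 1 : ℕ) : ℝ) := by push_cast; ring
  rw [h3, Real.rpow_natCast]
  exact h2

lemma logb_nat_le {n : ℕ} (hn : 1 ≤ n) : Real.logb 2 n ≤ n := by
  have h1 : (n : ℝ) < (2 : ℝ) ^ n := by exact_mod_cast Nat.lt_two_pow_self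
  have h2 : Real.logb 2 n < n := by
    rw [Real.logb_lt_iff_lt_rpow (by norm_num) (by positivity), Real.rpow_natCast]
    exact h1
  exact h2.le

/-- The first constant of the machine. -/
noncomputable def constB (M : Machine k) : ℝ :=
  8 + 8 * ((9 * k + 2 : ℕ) : ℝ) + 32 + 8 * (alphaC M : ℝ) +
    8 * Real.logb 2 (@Fintype.card M.Q M.fintypeQ : ℝ)

/-- The second constant of the machine. -/
noncomputable def constC (M : Machine k) : ℝ := 2 + Real.logb 2 (constB M)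

/-- The third constant of the machine. -/
noncomputable def constW (M : Machine k) : ℝ := 128 * (alphaC M : ℝ) * (k + 1)

lemma card_Q_pos (M : Machine k) : 1 ≤ @Fintype.card M.Q M.fintypeQ :=
  @Fintype.card_pos _ M.fintypeQ ⟨M.start⟩

lemma alphaC_pos (M : Machine k) : 1 ≤ alphaC M := by rw [alphaC]; omega

lemma logb_q_nonneg (M : Machine k) : 0 ≤ Real.logb 2 (@Fintype.card M.Q M.fintypeQ : ℝ) :=
  Real.logb_nonneg (by norm_num) (by exact_mod_cast card_Q_pos M)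

lemma constB_ge (M : Machine k) : 1 ≤ constB M := by
  have h1 : (0 : ℝ) ≤ ((9 * k + 2 : ℕ) : ℝ) := by positivity
  have h2 : (0 : ℝ) ≤ (alphaC M : ℝ) := by positivity
  have h3 := logb_q_nonneg M
  rw [constB]
  linarith

lemma constC_nonneg (M : Machine k) : 0 ≤ constC M := by
  have := Real.logb_nonneg (b := 2) (by norm_num) (constB_ge M)
  rw [constC]
  linarith

lemma constW_ge (M : Machine k) : 1 ≤ constW M := by
  have h1 : (1 : ℝ) ≤ (alphaC M : ℝ) := by exact_mod_cast alphaC_pos M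
  have h2 : (0 : ℝ) ≤ k := by positivity
  rw [constW]
  nlinarith

lemma pol_bound {n T : ℕ} (hn : 3 ≤ n) (hTn : T + 1 ≤ n ^ 2) :
    polT M T ≤ @Fintype.card M.Q M.fintypeQ * n ^ (9 * k + 2) := by
  have h1 : (2 * T + 3) ≤ n ^ 3 := by
    have h3 : n ^ 3 = n * n ^ 2 := by ring
    nlinarith
  rw [polT]
  apply Nat.mul_le_mul_left
  calc (T + 1) * (2 * T + 3) ^ (3 * k) ≤ n ^ 2 * (n ^ 3) ^ (3 * k) := by gcongr
    _ = n ^ (9 * k + 2) := by rw [← pow_mul, ← pow_add]; congr 1; ring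

lemma pol_pos (M : Machine k) (T : ℕ) : 1 ≤ polT M T := by
  rw [polT]
  have : 1 ≤ (T + 1) * (2 * T + 3) ^ (3 * k) := Nat.mul_pos (by omega) (by positivity)
  exact Nat.mul_pos (card_Q_pos M) this

lemma logb_pol_le {n T : ℕ} (hn : 3 ≤ n) (hTn : T + 1 ≤ n ^ 2) :
    Real.logb 2 (polT M T : ℝ) ≤ Real.logb 2 (@Fintype.card M.Q M.fintypeQ : ℝ) +
      ((9 * k + 2 : ℕ) : ℝ) * Real.logb 2 n := by
  have h3 : ((polT M T : ℕ) : ℝ) ≤ (@Fintype.card M.Q M.fintypeQ : ℝ) * (n : ℝ) ^ (9 * k + 2) := by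
    exact_mod_cast pol_bound hn hTn
  have h4 : (0 : ℝ) < (polT M T : ℝ) := by exact_mod_cast pol_pos M T
  have hq0 : (0 : ℝ) < (@Fintype.card M.Q M.fintypeQ : ℝ) := by exact_mod_cast card_Q_pos M
  have hn0 : (0 : ℝ) < n := by exact_mod_cast (by omega : 0 < n)
  calc Real.logb 2 (polT M T : ℝ)
      ≤ Real.logb 2 ((@Fintype.card M.Q M.fintypeQ : ℝ) * (n : ℝ) ^ (9 * k + 2)) :=
        Real.logb_le_logb_of_le (by norm_num) h4 h3
    _ = _ := by rw [Real.logb_mul hq0.ne' (by positivity), Real.logb_pow]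

lemma real_arith1 {D Λ lq A C lp cp : ℝ} (hD0 : 0 ≤ D) (hΛ1 : 1 ≤ Λ) (hlq : 0 ≤ lq) (hA : 1 ≤ A)
    (hC : 0 ≤ C) (h : lp ≤ lq + C * Λ) (hclog : cp ≤ lp + 1) :
    8 * D + 24 + 8 * A + 8 * cp ≤ (8 + 8 * C + 32 + 8 * A + 8 * lq) * (D + Λ) := by
  have e : (8 + 8 * C + 32 + 8 * A + 8 * lq) * (D + Λ) =
      8 * D + 8 * Λ + 8 * (C * D) + 8 * (C * Λ) + 32 * D + 32 * Λ + 8 * (A * D) +
        8 * (A * (Λ - 1)) + 8 * A + 8 * (lq * D) + 8 * (lq * (Λ - 1)) + 8 * lq := by ring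
  have h1 : 0 ≤ C * D := mul_nonneg hC hD0
  have h2 : 0 ≤ A * D := mul_nonneg (by linarith) hD0
  have h3 : 0 ≤ A * (Λ - 1) := mul_nonneg (by linarith) (by linarith)
  have h4 : 0 ≤ lq * D := mul_nonneg hlq hD0
  have h5 : 0 ≤ lq * (Λ - 1) := mul_nonneg hlq (by linarith)
  rw [e]
  linarith

/-- The threshold level of the natural number bound in reals. -/
lemma clog_m₀_le {n D T : ℕ} (hn : 3 ≤ n) (hTn : T + 1 ≤ n ^ 2)
    (hΛ1 : 1 ≤ Real.logb 2 (n : ℝ)) :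
    (Nat.clog 2 (8 * D + 24 + 8 * alphaC M + 8 * Nat.clog 2 (polT M T)) : ℝ) ≤
      Real.logb 2 (constB M) + Real.logb 2 ((D : ℝ) + Real.logb 2 n) + 1 := by
  set m₀ := 8 * D + 24 + 8 * alphaC M + 8 * Nat.clog 2 (polT M T) with hm₀
  have hm₀1 : 1 ≤ m₀ := by omega
  have hD0 : (0 : ℝ) ≤ D := by positivity
  have hm₀R : (m₀ : ℝ) ≤ constB M * ((D : ℝ) + Real.logb 2 n) := by
    have e : (m₀ : ℝ) = 8 * D + 24 + 8 * (alphaC M : ℝ) + 8 * (Nat.clog 2 (polT M T) : ℝ) := by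
      rw [hm₀]; push_cast; ring
    rw [e, constB]
    exact real_arith1 hD0 hΛ1 (logb_q_nonneg M) (by exact_mod_cast alphaC_pos M) (by positivity)
      (logb_pol_le hn hTn) (clog_le_logb (pol_pos M T))
  have h3 := clog_le_logb hm₀1
  have h4 : Real.logb 2 (m₀ : ℝ) ≤ Real.logb 2 (constB M * ((D : ℝ) + Real.logb 2 n)) :=
    Real.logb_le_logb_of_le (by norm_num) (by exact_mod_cast hm₀1) hm₀R
  have hb := constB_ge M
  rw [Real.logb_mul (by linarith) (by linarith)] at h4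
  linarith

lemma short_case {tapes : ℕ → Fin k → ℤ → M.Γ} {n D T : ℕ} (hn : 3 ≤ n)
    (hM : MultipliesWithLookahead M tapes n D T) (hTn : T + 1 ≤ n ^ 2)
    (hΛ1 : 1 ≤ Real.logb 2 (n : ℝ)) (hL : Real.logb 2 ((n : ℝ) / (D + Real.logb 2 n)) =
      Real.logb 2 n - Real.logb 2 ((D : ℝ) + Real.logb 2 n)) :
    (n : ℝ) * (Real.logb 2 ((n : ℝ) / (D + Real.logb 2 n)) - constC M) ≤ constW M * T := by
  have hclogm₀ := clog_m₀_le (M := M) (D := D) hn hTn hΛ1
  have hmain := main_nat hM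
  set m₀ := 8 * D + 24 + 8 * alphaC M + 8 * Nat.clog 2 (polT M T) with hm₀
  have hmainR : (n : ℝ) * (((Nat.log 2 n - Nat.clog 2 m₀ : ℕ) : ℝ)) ≤
      128 * (alphaC M : ℝ) * (k * T) := by
    exact_mod_cast hmain
  have hsub : (Nat.log 2 n : ℝ) - Nat.clog 2 m₀ ≤ ((Nat.log 2 n - Nat.clog 2 m₀ : ℕ) : ℝ) := by
    rcases Nat.le_total (Nat.clog 2 m₀) (Nat.log 2 n) with h | h
    · rw [Nat.cast_sub h]
    · have : (Nat.log 2 n : ℝ) ≤ Nat.clog 2 m₀ := by exact_mod_cast h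
      rw [Nat.sub_eq_zero_of_le h]
      simp only [Nat.cast_zero]
      linarith
  have hlogn := logb_le_log_succ (n := n) (by omega)
  have hLC : Real.logb 2 ((n : ℝ) / (D + Real.logb 2 n)) - constC M ≤
      ((Nat.log 2 n - Nat.clog 2 m₀ : ℕ) : ℝ) := by
    rw [hL, constC]
    linarith
  have hn0 : (0 : ℝ) ≤ n := by positivity
  have h5 := (mul_le_mul_of_nonneg_left hLC hn0).trans hmainR
  refine h5.trans ?_
  rw [constW]
  have h6 : 0 ≤ 128 * (alphaC M : ℝ) * T := by positivity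
  have e : 128 * (alphaC M : ℝ) * (k + 1) * T = 128 * (alphaC M : ℝ) * (k * T) +
      128 * (alphaC M : ℝ) * T := by ring
  rw [e]
  linarith

/-- The final inequality in real numbers. -/
theorem lower_bound_real (M : Machine k) :
    ∃ c : ℝ, 0 < c ∧ ∀ n : ℕ, 3 ≤ n → ∀ (D T : ℕ) (tapes : ℕ → Fin k → ℤ → M.Γ),
      MultipliesWithLookahead M tapes n D T →
      c * n * Real.logb 2 ((n : ℝ) / (D + Real.logb 2 n)) ≤ T := by
  have hW1 := constW_ge M
  have hC₃0 := constC_nonneg M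
  refine ⟨1 / (constW M + constC M), by positivity, ?_⟩
  intro n hn D T tapes hM
  have hnR : (3 : ℝ) ≤ n := by exact_mod_cast hn
  have hΛ1 : 1 ≤ Real.logb 2 (n : ℝ) := by
    rw [Real.le_logb_iff_rpow_le (by norm_num) (by linarith)]
    norm_num
    linarith
  have hD0 : (0 : ℝ) ≤ D := by positivity
  have hDΛ1 : 1 ≤ (D : ℝ) + Real.logb 2 n := by linarith
  have hlDΛ : 0 ≤ Real.logb 2 ((D : ℝ) + Real.logb 2 n) := Real.logb_nonneg (by norm_num) hDΛ1
  have hL : Real.logb 2 ((n : ℝ) / (D + Real.logb 2 n)) =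
      Real.logb 2 n - Real.logb 2 ((D : ℝ) + Real.logb 2 n) := by
    rw [Real.logb_div (by positivity) (by positivity)]
  have h2nTR : 2 * (n : ℝ) ≤ T := by exact_mod_cast two_n_le_T hM
  have hT0 : (0 : ℝ) ≤ T := by positivity
  have hn0 : (0 : ℝ) ≤ n := by positivity
  have hcpos : 0 < constW M + constC M := by positivity
  have hgoal : 1 / (constW M + constC M) * n * Real.logb 2 ((n : ℝ) / (D + Real.logb 2 n)) =
      (n * Real.logb 2 ((n : ℝ) / (D + Real.logb 2 n))) / (constW M + constC M) := by ring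
  rw [hgoal, div_le_iff₀ hcpos]
  by_cases hTn : n ^ 2 ≤ T
  · -- a very long run
    have h1 : ((n : ℝ)) ^ 2 ≤ T := by exact_mod_cast hTn
    have h2 : Real.logb 2 (n : ℝ) ≤ n := logb_nat_le (by omega)
    have h3 : Real.logb 2 ((n : ℝ) / (D + Real.logb 2 n)) ≤ n := by rw [hL]; linarith
    have h4 : (n : ℝ) * Real.logb 2 ((n : ℝ) / (D + Real.logb 2 n)) ≤ n * n :=
      mul_le_mul_of_nonneg_left h3 hn0
    have h5 : (T : ℝ) * 1 ≤ T * (constW M + constC M) :=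
      mul_le_mul_of_nonneg_left (by linarith) hT0
    nlinarith
  · have h5 := short_case hn hM (by omega) hΛ1 hL
    have h7 : constC M * (2 * (n : ℝ)) ≤ constC M * T := mul_le_mul_of_nonneg_left h2nTR hC₃0
    have h8 : 0 ≤ constC M * (n : ℝ) := by positivity
    have h9 : (n : ℝ) * Real.logb 2 ((n : ℝ) / (D + Real.logb 2 n)) =
        n * (Real.logb 2 ((n : ℝ) / (D + Real.logb 2 n)) - constC M) + constC M * n := by ring
    have h10 : (T : ℝ) * (constW M + constC M) = constW M * T + constC M * T := by ring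
    have h11 : constC M * (2 * (n : ℝ)) = 2 * (constC M * n) := by ring
    rw [h9, h10]
    linarith

end Vale.Agent.Lib.P338
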