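import Vale.Agent.Lib.P338.Basic

/-!
The overlap sum: cells visited at both sides of a dyadic split of the input positions are charged
to distinct time steps.
-/

namespace Vale.Agent.Lib.P338

/-- Cells visited at times `t < T` with input position in `[a, b)`. -/
def visited (h : ℕ → ℤ) (p : ℕ → ℕ) (T a b : ℕ) : Finset ℤ :=
  ((Finset.range T).filter fun t => a ≤ p t ∧ p t < b).image h

/-- Cells visited both while the input position is in `[a, a + m)` and in `[a + m, a + 2 m)`. -/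
def overlap (h : ℕ → ℤ) (p : ℕ → ℕ) (T a m : ℕ) : Finset ℤ :=
  visited h p T a (a + m) ∩ visited h p T (a + m) (a + 2 * m)

lemma mem_visited {h : ℕ → ℤ} {p : ℕ → ℕ} {T a b : ℕ} {z : ℤ} :
    z ∈ visited h p T a b ↔ ∃ t, t < T ∧ a ≤ p t ∧ p t < b ∧ h t = z := by
  simp only [visited, Finset.mem_image, Finset.mem_filter, Finset.mem_range]
  constructor
  · rintro ⟨t, ⟨h1, h2, h3⟩, h4⟩
    exact ⟨t, h1, h2, h3, h4⟩
  · rintro ⟨t, h1, h2, h3, h4⟩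
    exact ⟨t, ⟨h1, h2, h3⟩, h4⟩

/-- The charge of a cell in an overlap: its last visit before the first visit after the split. -/
def Charged (h : ℕ → ℤ) (p : ℕ → ℕ) (T a m : ℕ) (z : ℤ) (t : ℕ) : Prop :=
  t < T ∧ h t = z ∧ a ≤ p t ∧ p t < a + m ∧
    ∃ t', t < t' ∧ t' < T ∧ h t' = z ∧ a + m ≤ p t' ∧ p t' < a + 2 * m ∧
      ∀ u, t < u → u < t' → h u ≠ z

lemma exists_charged {h : ℕ → ℤ} {p : ℕ → ℕ} {T a m : ℕ} {z : ℤ} (hp : Monotone p)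
    (hz : z ∈ overlap h p T a m) : ∃ t, Charged h p T a m z t := by
  classical
  obtain ⟨hz1, hz2⟩ := Finset.mem_inter.1 hz
  obtain ⟨t₁, h1T, h1a, h1b, h1z⟩ := mem_visited.1 hz1
  obtain ⟨t₂, h2T, h2a, h2b, h2z⟩ := mem_visited.1 hz2
  have h12 : t₁ < t₂ := by
    by_contra hc
    have := hp (not_lt.1 hc)
    omega
  -- the first visit after `t₁` with position past the split
  have hex : ∃ t, t₁ < t ∧ h t = z ∧ a + m ≤ p t := ⟨t₂, h12, h2z, h2a⟩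
  set t' := Nat.find hex with ht'
  obtain ⟨h3, h4, h5⟩ := Nat.find_spec hex
  have ht'min : ∀ u, u < t' → ¬ (t₁ < u ∧ h u = z ∧ a + m ≤ p u) := fun u hu => Nat.find_min hex hu
  have ht'le : t' ≤ t₂ := Nat.find_min' hex ⟨h12, h2z, h2a⟩
  -- the last visit before `t'`
  have hex2 : ∃ t, t < t' ∧ h t = z := ⟨t₁, h3, h1z⟩
  have hbdd : ∀ t, t < t' ∧ h t = z → t ≤ t' := fun t ht => ht.1.le
  set t := Nat.findGreatest (fun t => t < t' ∧ h t = z) t' with ht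
  have hspec : t < t' ∧ h t = z :=
    Nat.findGreatest_spec (P := fun t => t < t' ∧ h t = z) (n := t') h3.le ⟨h3, h1z⟩
  have hgt : t₁ ≤ t := Nat.le_findGreatest h3.le ⟨h3, h1z⟩
  refine ⟨t, by omega, hspec.2, ?_, ?_, t', hspec.1, by omega, h4, h5, ?_, ?_⟩
  · exact h1a.trans (hp hgt)
  · by_contra hc
    rcases Nat.eq_or_lt_of_le hgt with he | hl
    · rw [← he] at hc; exact hc h1b
    · exact ht'min t hspec.1 ⟨hl, hspec.2, not_lt.1 hc⟩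
  · have := hp ht'le
    omega
  · intro u hu hu' hzu
    have : u ≤ t := Nat.le_findGreatest hu'.le ⟨hu', hzu⟩
    omega

/-- A charge determines the position pair. -/
lemma charged_pos {h : ℕ → ℤ} {p : ℕ → ℕ} {T a m a' m' : ℕ} {z z' : ℤ} {t : ℕ}
    (h1 : Charged h p T a m z t) (h2 : Charged h p T a' m' z' t) :
    z = z' ∧ ∃ t', a ≤ p t ∧ p t < a + m ∧ a + m ≤ p t' ∧ p t' < a + 2 * m ∧
      a' ≤ p t ∧ p t < a' + m' ∧ a' + m' ≤ p t' ∧ p t' < a' + 2 * m' := by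
  obtain ⟨_, hz, ha, hb, t₁, h3, h4, h5, h6, h7, h8⟩ := h1
  obtain ⟨_, hz', ha', hb', t₂, h3', h4', h5', h6', h7', h8'⟩ := h2
  have hzz : z = z' := hz.symm.trans hz'
  subst hzz
  have ht : t₁ = t₂ := by
    rcases lt_trichotomy t₁ t₂ with hl | he | hl
    · exact absurd h5 (h8' t₁ h3 hl)
    · exact he
    · exact absurd h5' (h8 t₂ h3' hl)
  subst ht
  exact ⟨rfl, t₁, ha, hb, h6, h7, ha', hb', h6', h7'⟩

lemma div_facts {P P' ℓ i : ℕ}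
    (h1 : i * 2 ^ (ℓ + 1) ≤ P) (h2 : P < i * 2 ^ (ℓ + 1) + 2 ^ ℓ)
    (h3 : i * 2 ^ (ℓ + 1) + 2 ^ ℓ ≤ P') (h4 : P' < i * 2 ^ (ℓ + 1) + 2 * 2 ^ ℓ) :
    P / 2 ^ ℓ = 2 * i ∧ P' / 2 ^ ℓ = 2 * i + 1 := by
  have e : i * 2 ^ (ℓ + 1) = (2 * i) * 2 ^ ℓ := by rw [pow_succ]; ring
  rw [e] at h1 h2 h3 h4
  constructor
  · apply Nat.div_eq_of_lt_le h1
    rw [add_mul, one_mul]
    exact h2
  · apply Nat.div_eq_of_lt_le
    · rw [add_mul, one_mul]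
      exact h3
    · have : (2 * i + 1 + 1) * 2 ^ ℓ = 2 * i * 2 ^ ℓ + 2 * 2 ^ ℓ := by ring
      rw [this]
      exact h4

/-- Uniqueness of the dyadic split of a pair of positions. -/
lemma dyadic_unique {P P' ℓ ℓ' i i' : ℕ}
    (h1 : i * 2 ^ (ℓ + 1) ≤ P) (h2 : P < i * 2 ^ (ℓ + 1) + 2 ^ ℓ)
    (h3 : i * 2 ^ (ℓ + 1) + 2 ^ ℓ ≤ P') (h4 : P' < i * 2 ^ (ℓ + 1) + 2 * 2 ^ ℓ)
    (h1' : i' * 2 ^ (ℓ' + 1) ≤ P) (h2' : P < i' * 2 ^ (ℓ' + 1) + 2 ^ ℓ')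
    (h3' : i' * 2 ^ (ℓ' + 1) + 2 ^ ℓ' ≤ P') (h4' : P' < i' * 2 ^ (ℓ' + 1) + 2 * 2 ^ ℓ') :
    ℓ = ℓ' ∧ i = i' := by
  obtain ⟨d1, d2⟩ := div_facts h1 h2 h3 h4
  obtain ⟨d1', d2'⟩ := div_facts h1' h2' h3' h4'
  have key : ∀ {P P' ℓ ℓ' i i' : ℕ}, ℓ < ℓ' → P / 2 ^ ℓ = 2 * i → P' / 2 ^ ℓ = 2 * i + 1 →
      P / 2 ^ ℓ' = 2 * i' → P' / 2 ^ ℓ' = 2 * i' + 1 → False := by
    intro P P' ℓ ℓ' i i' hl d1 d2 d1' d2'
    obtain ⟨e, rfl⟩ : ∃ e, ℓ' = ℓ + (e + 1) := ⟨ℓ' - ℓ - 1, by omega⟩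
    have hdiv : ∀ Z : ℕ, Z / 2 ^ (ℓ + (e + 1)) = ((Z / 2 ^ ℓ) / 2) / 2 ^ e := by
      intro Z
      rw [Nat.div_div_eq_div_mul, Nat.div_div_eq_div_mul, pow_add, pow_succ]
      congr 1
      ring
    rw [hdiv, d1] at d1'
    rw [hdiv, d2] at d2'
    have h5 : 2 * i / 2 = i := by omega
    have h6 : (2 * i + 1) / 2 = i := by omega
    rw [h5] at d1'
    rw [h6] at d2'
    omega
  have hl : ℓ = ℓ' := by
    rcases lt_trichotomy ℓ ℓ' with hlt | he | hlt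
    · exact (key hlt d1 d2 d1' d2').elim
    · exact he
    · exact (key hlt d1' d2' d1 d2).elim
  subst hl
  exact ⟨rfl, by omega⟩

/-- The overlap sum over all dyadic splits is at most the number of time steps. -/
theorem sum_overlap_le (h : ℕ → ℤ) (p : ℕ → ℕ) (T n : ℕ) (hp : Monotone p) (Ls : Finset ℕ) :
    ∑ ℓ ∈ Ls, ∑ i ∈ Finset.range (n / 2 ^ (ℓ + 1)),
      (overlap h p T (i * 2 ^ (ℓ + 1)) (2 ^ ℓ)).card ≤ T := by
  classical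
  set Tr := Ls.sigma fun ℓ => (Finset.range (n / 2 ^ (ℓ + 1))).sigma fun i =>
    overlap h p T (i * 2 ^ (ℓ + 1)) (2 ^ ℓ) with hTr
  have hcard : Tr.card = ∑ ℓ ∈ Ls, ∑ i ∈ Finset.range (n / 2 ^ (ℓ + 1)),
      (overlap h p T (i * 2 ^ (ℓ + 1)) (2 ^ ℓ)).card := by
    rw [hTr, Finset.card_sigma]
    refine Finset.sum_congr rfl fun ℓ _ => ?_
    rw [Finset.card_sigma]
  rw [← hcard]
  have := Finset.card_le_card_of_forall_subsingleton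
    (s := Tr) (t := Finset.range T)
    (fun x t => Charged h p T (x.2.1 * 2 ^ (x.1 + 1)) (2 ^ x.1) x.2.2 t) ?_ ?_
  · simpa using this
  · intro x hx
    have hx' : x.2.2 ∈ overlap h p T (x.2.1 * 2 ^ (x.1 + 1)) (2 ^ x.1) := by
      simp only [hTr, Finset.mem_sigma] at hx
      exact hx.2.2
    obtain ⟨t, ht⟩ := exists_charged hp hx'
    exact ⟨t, Finset.mem_range.2 ht.1, ht⟩
  · intro t _ x hx y hy
    obtain ⟨hz, t', c1, c2, c3, c4, c5, c6, c7, c8⟩ := charged_pos hx.2 hy.2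
    obtain ⟨hl, hi⟩ := dyadic_unique c1 c2 c3 c4 c5 c6 c7 c8
    obtain ⟨l, i, z⟩ := x
    obtain ⟨l', i', z'⟩ := y
    simp only at hl hi hz
    subst hl hi hz
    rfl

end Vale.Agent.Lib.P338
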