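import Vale.Agent.Lib.P338.Window

/-!
Overlaps are intervals; the signature of a run at a split and the space of signatures.
-/

namespace Vale.Agent.Lib.P338

variable {k : ℕ} {M : Machine k}

lemma ivt_up {h : ℕ → ℤ} (hstep : ∀ t, |h (t + 1) - h t| ≤ 1) {t₁ t₂ : ℕ} {z : ℤ}
    (h12 : t₁ ≤ t₂) (h1 : h t₁ ≤ z) (h2 : z ≤ h t₂) : ∃ t, t₁ ≤ t ∧ t ≤ t₂ ∧ h t = z := by
  induction t₂, h12 using Nat.le_induction with
  | base => exact ⟨t₁, le_rfl, le_rfl, le_antisymm h1 h2⟩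
  | succ t₂ h12 ih =>
    by_cases hc : z ≤ h t₂
    · obtain ⟨t, h3, h4, h5⟩ := ih hc
      exact ⟨t, h3, by omega, h5⟩
    · refine ⟨t₂ + 1, by omega, le_rfl, ?_⟩
      have := abs_le.1 (hstep t₂)
      omega

lemma ivt_down {h : ℕ → ℤ} (hstep : ∀ t, |h (t + 1) - h t| ≤ 1) {t₁ t₂ : ℕ} {z : ℤ}
    (h12 : t₁ ≤ t₂) (h1 : z ≤ h t₁) (h2 : h t₂ ≤ z) : ∃ t, t₁ ≤ t ∧ t ≤ t₂ ∧ h t = z := by
  induction t₂, h12 using Nat.le_induction with
  | base => exact ⟨t₁, le_rfl, le_rfl, le_antisymm h2 h1⟩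
  | succ t₂ h12 ih =>
    by_cases hc : h t₂ ≤ z
    · obtain ⟨t, h3, h4, h5⟩ := ih hc
      exact ⟨t, h3, by omega, h5⟩
    · refine ⟨t₂ + 1, by omega, le_rfl, ?_⟩
      have := abs_le.1 (hstep t₂)
      omega

/-- Visited sets are intervals. -/
lemma visited_convex {h : ℕ → ℤ} {p : ℕ → ℕ} {T a b : ℕ} (hp : Monotone p)
    (hstep : ∀ t, |h (t + 1) - h t| ≤ 1) {z₁ z₂ z : ℤ} (h₁ : z₁ ∈ visited h p T a b)
    (h₂ : z₂ ∈ visited h p T a b) (h1 : z₁ ≤ z) (h2 : z ≤ z₂) : z ∈ visited h p T a b := by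
  obtain ⟨t₁, h1T, h1a, h1b, rfl⟩ := mem_visited.1 h₁
  obtain ⟨t₂, h2T, h2a, h2b, rfl⟩ := mem_visited.1 h₂
  rcases Nat.le_total t₁ t₂ with h12 | h12
  · obtain ⟨t, h3, h4, h5⟩ := ivt_up hstep h12 h1 h2
    exact mem_visited.2 ⟨t, by omega, h1a.trans (hp h3), (hp h4).trans_lt h2b, h5⟩
  · obtain ⟨t, h3, h4, h5⟩ := ivt_down hstep h12 h2 h1
    exact mem_visited.2 ⟨t, by omega, h2a.trans (hp h3), (hp h4).trans_lt h1b, h5⟩

/-- Overlaps are intervals. -/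
lemma overlap_convex {h : ℕ → ℤ} {p : ℕ → ℕ} {T a m : ℕ} (hp : Monotone p)
    (hstep : ∀ t, |h (t + 1) - h t| ≤ 1) {z₁ z₂ z : ℤ} (h₁ : z₁ ∈ overlap h p T a m)
    (h₂ : z₂ ∈ overlap h p T a m) (h1 : z₁ ≤ z) (h2 : z ≤ z₂) : z ∈ overlap h p T a m := by
  obtain ⟨h3, h4⟩ := Finset.mem_inter.1 h₁
  obtain ⟨h5, h6⟩ := Finset.mem_inter.1 h₂
  exact Finset.mem_inter.2 ⟨visited_convex hp hstep h3 h5 h1 h2, visited_convex hp hstep h4 h6 h1 h2⟩

/-- The left end of a finite set of integers. -/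
noncomputable def loOf (S : Finset ℤ) : ℤ := if h : S.Nonempty then S.min' h else 1

/-- The right end of a finite set of integers. -/
noncomputable def hiOf (S : Finset ℤ) : ℤ := if h : S.Nonempty then S.max' h else 0

lemma lo_le_of_mem {S : Finset ℤ} {z : ℤ} (h : z ∈ S) : loOf S ≤ z := by
  have hn : S.Nonempty := ⟨z, h⟩
  rw [loOf, dif_pos hn]
  exact Finset.min'_le _ _ h

lemma le_hi_of_mem {S : Finset ℤ} {z : ℤ} (h : z ∈ S) : z ≤ hiOf S := by
  have hn : S.Nonempty := ⟨z, h⟩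
  rw [hiOf, dif_pos hn]
  exact Finset.le_max' _ _ h

lemma lo_mem {S : Finset ℤ} (hn : S.Nonempty) : loOf S ∈ S := by
  rw [loOf, dif_pos hn]
  exact Finset.min'_mem _ _

lemma hi_mem {S : Finset ℤ} (hn : S.Nonempty) : hiOf S ∈ S := by
  rw [hiOf, dif_pos hn]
  exact Finset.max'_mem _ _

/-- Two interval sets with the same ends are equal. -/
lemma mem_of_same_ends {S S' : Finset ℤ}
    (hc' : ∀ z₁ z₂ z, z₁ ∈ S' → z₂ ∈ S' → z₁ ≤ z → z ≤ z₂ → z ∈ S')
    (hlo : loOf S = loOf S') (hhi : hiOf S = hiOf S') {z : ℤ} (hz : z ∈ S) : z ∈ S' := by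
  have hne : S'.Nonempty := by
    by_contra hn
    have h1 : loOf S' = 1 := by rw [loOf, dif_neg hn]
    have h2 : hiOf S' = 0 := by rw [hiOf, dif_neg hn]
    have h3 := lo_le_of_mem hz
    have h4 := le_hi_of_mem hz
    omega
  exact hc' _ _ z (lo_mem hne) (hi_mem hne) (hlo ▸ lo_le_of_mem hz) (hhi ▸ le_hi_of_mem hz)

/-- In an interval with few elements, each element is close to the left end. -/
lemma sub_lo_lt {S : Finset ℤ} {v : ℕ}
    (hc : ∀ z₁ z₂ z, z₁ ∈ S → z₂ ∈ S → z₁ ≤ z → z ≤ z₂ → z ∈ S)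
    (hv : S.card < v) {z : ℤ} (hz : z ∈ S) : 0 ≤ z - loOf S ∧ z - loOf S < v := by
  have hne : S.Nonempty := ⟨z, hz⟩
  have h0 := lo_le_of_mem hz
  refine ⟨by omega, ?_⟩
  have hsub : Finset.Icc (loOf S) z ⊆ S := fun w hw => by
    obtain ⟨h1, h2⟩ := Finset.mem_Icc.1 hw
    exact hc _ _ w (lo_mem hne) hz h1 h2
  have h1 := Finset.card_le_card hsub
  rw [Int.card_Icc] at h1
  omega

lemma hd_step (c₀ : Config M) (ι : ℕ → Option (Bool × Bool)) (i : Fin k) (t : ℕ) :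
    |hd (run M ι c₀) i (t + 1) - hd (run M ι c₀) i t| ≤ 1 :=
  head_step ι (run M ι c₀ t) i

lemma ps_mono (c₀ : Config M) (ι : ℕ → Option (Bool × Bool)) : Monotone (ps (run M ι c₀)) :=
  fun _ _ h => pos_mono ι c₀ h

lemma mem_overlap_abs {ι : ℕ → Option (Bool × Bool)} {tp : Fin k → ℤ → M.Γ} {T a m : ℕ} {i : Fin k}
    {z : ℤ} (hz : z ∈ overlap (hd (run M ι (initial M tp)) i) (ps (run M ι (initial M tp))) T a m) :
    |z| ≤ T := by
  obtain ⟨h1, _⟩ := Finset.mem_inter.1 hz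
  obtain ⟨t, htT, _, _, rfl⟩ := mem_visited.1 h1
  have := abs_head_le ι (initial M tp) i rfl t
  have h2 : (t : ℤ) ≤ T := by exact_mod_cast htT.le
  exact this.trans h2

lemma lo_abs {S : Finset ℤ} {T : ℕ} (h : ∀ z ∈ S, |z| ≤ T) : |loOf S| ≤ T + 1 := by
  by_cases hn : S.Nonempty
  · have := h _ (lo_mem hn)
    linarith
  · rw [loOf, dif_neg hn]
    simp

lemma hi_abs {S : Finset ℤ} {T : ℕ} (h : ∀ z ∈ S, |z| ≤ T) : |hiOf S| ≤ T + 1 := by
  by_cases hn : S.Nonempty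
  · have := h _ (hi_mem hn)
    linarith
  · rw [hiOf, dif_neg hn]
    simp only [abs_zero]
    positivity

/-- The overlap of the run on `x` on tape `i`. -/
abbrev ovl (tapes : ℕ → Fin k → ℤ → M.Γ) (n y T a m x : ℕ) (i : Fin k) : Finset ℤ :=
  overlap (hd (rn M tapes n x y) i) (ps (rn M tapes n x y)) T a m

/-- The type of signatures. -/
abbrev SigT (M : Machine k) (v : ℕ) : Type :=
  M.Q × (Fin k → ℤ) × ℕ × (Fin k → ℤ) × (Fin k → ℤ) × (Fin k → Fin v → M.Γ)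

/-- The signature of the run on `x` at the split. -/
noncomputable def sigOf (tapes : ℕ → Fin k → ℤ → M.Γ) (n y T a m v x : ℕ) : SigT M v :=
  let c := rn M tapes n x y
  let s := firstT c (a + m)
  ((c s).state, (c s).head, (c s).out.length, fun i => loOf (ovl tapes n y T a m x i),
    fun i => hiOf (ovl tapes n y T a m x i),
    fun i j => (c s).tape i (loOf (ovl tapes n y T a m x i) + (j : ℕ)))

/-- Equal signatures of runs with small overlaps give the facts used for decoding. -/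
lemma sameSig_of_sig_eq {tapes : ℕ → Fin k → ℤ → M.Γ} {n y T a m v x₁ x₂ : ℕ}
    (h : sigOf tapes n y T a m v x₁ = sigOf tapes n y T a m v x₂)
    (hv : ∀ i, (ovl tapes n y T a m x₁ i).card < v) :
    SameSig tapes n y T a m x₁ x₂ := by
  simp only [sigOf, Prod.mk.injEq] at h
  obtain ⟨h1, h2, h3, h4, h5, h6⟩ := h
  have hcx : ∀ x i, ∀ z₁ z₂ z, z₁ ∈ ovl tapes n y T a m x i → z₂ ∈ ovl tapes n y T a m x i →
      z₁ ≤ z → z ≤ z₂ → z ∈ ovl tapes n y T a m x i := fun x i z₁ z₂ z hz1 hz2 hle1 hle2 =>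
    overlap_convex (ps_mono _ _) (hd_step _ _ i) hz1 hz2 hle1 hle2
  refine ⟨h1, fun i => congrFun h2 i, h3, ?_, ?_⟩
  · intro i z
    constructor
    · exact mem_of_same_ends (hcx x₂ i) (congrFun h4 i) (congrFun h5 i)
    · exact mem_of_same_ends (hcx x₁ i) (congrFun h4 i).symm (congrFun h5 i).symm
  · intro i z hz
    obtain ⟨h7, h8⟩ := sub_lo_lt (hcx x₁ i) (hv i) hz
    have h9 := congrFun (congrFun h6 i) ⟨(z - loOf (ovl tapes n y T a m x₁ i)).toNat, by omega⟩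
    have h10 := congrFun h4 i
    simp only at h9 h10
    rw [← h10] at h9
    have h11 : loOf (ovl tapes n y T a m x₁ i) +
        (((z - loOf (ovl tapes n y T a m x₁ i)).toNat : ℕ) : ℤ) = z := by omega
    rw [h11] at h9
    exact h9

/-- The space of signatures. -/
lemma sig_space (M : Machine k) (T v : ℕ) : ∃ P : Finset (SigT M v),
    (∀ q (hd : Fin k → ℤ) (e : ℕ) (lo hi : Fin k → ℤ) (ct : Fin k → Fin v → M.Γ),
      (∀ i, |hd i| ≤ T + 1) → e ≤ T → (∀ i, |lo i| ≤ T + 1) → (∀ i, |hi i| ≤ T + 1) →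
      (q, hd, e, lo, hi, ct) ∈ P) ∧
    P.card = @Fintype.card M.Q M.fintypeQ * ((2 * T + 3) ^ k * ((T + 1) * ((2 * T + 3) ^ k *
      ((2 * T + 3) ^ k * (@Fintype.card M.Γ M.fintypeΓ ^ v) ^ k)))) := by
  classical
  let _ := M.fintypeQ
  let _ := M.fintypeΓ
  set B : Finset (Fin k → ℤ) := Fintype.piFinset fun _ => Finset.Icc (-(T + 1 : ℤ)) (T + 1) with hB
  have hBcard : B.card = (2 * T + 3) ^ k := by
    rw [hB, Fintype.card_piFinset, Finset.prod_const, Int.card_Icc, Finset.card_univ,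
      Fintype.card_fin]
    congr 1
    omega
  refine ⟨Finset.univ ×ˢ B ×ˢ Finset.range (T + 1) ×ˢ B ×ˢ B ×ˢ Finset.univ, ?_, ?_⟩
  · intro q hd e lo hi ct h1 h2 h3 h4
    simp only [Finset.mem_product, Finset.mem_univ, true_and, and_true, Finset.mem_range, hB,
      Fintype.mem_piFinset, Finset.mem_Icc]
    refine ⟨fun i => abs_le.1 (h1 i), by omega, fun i => abs_le.1 (h3 i), fun i => abs_le.1 (h4 i)⟩
  · simp only [Finset.card_product, hBcard, Finset.card_univ, Finset.card_range, Fintype.card_fun,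
      Fintype.card_fin]

end Vale.Agent.Lib.P338
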