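import Vale.Agent.Lib.P338.Decode
import Vale.Agent.Lib.P338.Arith

/-!
No product digit can be emitted before the input digit of the same position has been read, and
equal signatures force equal product digits in a window.
-/

namespace Vale.Agent.Lib.P338

variable {k : ℕ} {M : Machine k}

/-- The first time the input position reaches `b`. -/
noncomputable def firstT (c : ℕ → Config M) (b : ℕ) : ℕ := sInf {t | b ≤ (c t).pos}

lemma firstT_spec {c : ℕ → Config M} {b : ℕ} (h : ∃ t, b ≤ (c t).pos) :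
    b ≤ (c (firstT c b)).pos :=
  Nat.sInf_mem (s := {t | b ≤ (c t).pos}) h

lemma firstT_min {c : ℕ → Config M} {b u : ℕ} (h : u < firstT c b) : (c u).pos < b := by
  have := Nat.notMem_of_lt_sInf (s := {t | b ≤ (c t).pos}) h
  simpa using this

lemma firstT_le {c : ℕ → Config M} {b u : ℕ} (h : b ≤ (c u).pos) : firstT c b ≤ u :=
  Nat.sInf_le (s := {t | b ≤ (c t).pos}) h

/-- The run on the input `x`, `y`. -/
abbrev rn (M : Machine k) (tapes : ℕ → Fin k → ℤ → M.Γ) (n x y : ℕ) : ℕ → Config M :=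
  run M (digitStream n x y) (initial M (tapes y))

lemma stream_agree_low {n x₁ x₂ y j p : ℕ} (h : x₁ % 2 ^ j = x₂ % 2 ^ j) (hp : p < j) :
    digitStream n x₁ y p = digitStream n x₂ y p := by
  have h3 := congrArg (fun z => z.testBit p) h
  simp only [Nat.testBit_mod_two_pow, decide_eq_true hp, Bool.true_and] at h3
  simp only [digitStream, h3]

lemma rn_agree {tapes : ℕ → Fin k → ℤ → M.Γ} {n x₁ x₂ y j t : ℕ} (h : x₁ % 2 ^ j = x₂ % 2 ^ j)
    (hpos : ∀ u, u < t → (rn M tapes n x₁ y u).pos < j) :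
    rn M tapes n x₁ y t = rn M tapes n x₂ y t := by
  apply run_congr_of_agree
  intro u hu
  exact stream_agree_low h (hpos u hu)

lemma spec_length {tapes : ℕ → Fin k → ℤ → M.Γ} {n D T x y : ℕ}
    (hM : MultipliesWithLookahead M tapes n D T) (hx : x < 2 ^ n) (hy : y < 2 ^ n) :
    2 * n ≤ (rn M tapes n x y T).out.length := by
  by_cases h0 : n = 0
  · omega
  have := (hM x y hx hy).1 (2 * n - 1) (by omega)
  have h2 : 2 * n - 1 < (rn M tapes n x y T).out.length := by
    by_contra hc
    have h3 := List.getElem?_eq_none (not_lt.1 hc)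
    rw [h3] at this
    exact absurd this (by simp)
  omega

lemma out_getElem_T {tapes : ℕ → Fin k → ℤ → M.Γ} {n D T x y t j : ℕ}
    (hM : MultipliesWithLookahead M tapes n D T) (hx : x < 2 ^ n) (hy : y < 2 ^ n)
    (ht : t ≤ T) (hj : j < (rn M tapes n x y t).out.length) (hj2 : j < 2 * n) :
    (rn M tapes n x y t).out[j]? = some ((x * y).testBit j) := by
  obtain ⟨w, hw⟩ := out_prefix (digitStream n x y) (initial M (tapes y)) ht
  have h1 := (hM x y hx hy).1 j hj2
  rw [hw, List.getElem?_append_left hj] at h1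
  exact h1

lemma add_two_pow_lt {x j n : ℕ} (hx : x < 2 ^ n) (hj : j < n) (hbit : x.testBit j = false) :
    x + 2 ^ j < 2 ^ n := by
  have h1 := Nat.mod_add_div x (2 ^ j)
  have h2 : x % 2 ^ j < 2 ^ j := Nat.mod_lt _ (by positivity)
  obtain ⟨e, rfl⟩ : ∃ e, n = j + (e + 1) := ⟨n - j - 1, by omega⟩
  have h3 : x / 2 ^ j < 2 ^ (e + 1) := by
    apply Nat.div_lt_of_lt_mul
    rw [← pow_add]
    exact hx
  have h4 : (x / 2 ^ j) % 2 = 0 := by
    rw [Nat.testBit_eq_decide_div_mod_eq] at hbit
    have := decide_eq_false_iff_not.1 hbit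
    omega
  have h5 : 2 ^ (e + 1) = 2 * 2 ^ e := pow_succ' _ _
  have h6 : x / 2 ^ j + 2 ≤ 2 ^ (e + 1) := by omega
  calc x + 2 ^ j = x % 2 ^ j + 2 ^ j * (x / 2 ^ j + 1) := by rw [mul_add, mul_one, ← add_assoc, h1]
    _ < 2 ^ j + 2 ^ j * (x / 2 ^ j + 1) := by omega
    _ = 2 ^ j * (x / 2 ^ j + 2) := by ring
    _ ≤ 2 ^ j * 2 ^ (e + 1) := Nat.mul_le_mul_left _ h6
    _ = 2 ^ (j + (e + 1)) := (pow_add _ _ _).symm

lemma no_early_core {tapes : ℕ → Fin k → ℤ → M.Γ} {n D T u y j t : ℕ}
    (hM : MultipliesWithLookahead M tapes n D T) (hu : u + 2 ^ j < 2 ^ n) (hy : y < 2 ^ n)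
    (hodd : y % 2 = 1) (hj : j < n) (ht : t ≤ T)
    (hpos : ∀ u', u' < t → (rn M tapes n u y u').pos < j) :
    (rn M tapes n u y t).out.length ≤ j := by
  by_contra hc
  have hlen : j < (rn M tapes n u y t).out.length := not_le.1 hc
  have hmod : u % 2 ^ j = (u + 2 ^ j) % 2 ^ j := by simp
  have hag := rn_agree (tapes := tapes) (n := n) (y := y) hmod hpos
  have h1 := out_getElem_T hM (by omega) hy ht hlen (by omega)
  have h2 := out_getElem_T (x := u + 2 ^ j) hM hu hy ht (by rw [← hag]; exact hlen) (by omega)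
  rw [← hag, h1] at h2
  exact testBit_mul_flip u y j hodd (Option.some.inj h2).symm

/-- No digit of the product is emitted before the input digit of the same position is read. -/
theorem no_early {tapes : ℕ → Fin k → ℤ → M.Γ} {n D T x y j t : ℕ}
    (hM : MultipliesWithLookahead M tapes n D T) (hx : x < 2 ^ n) (hy : y < 2 ^ n)
    (hodd : y % 2 = 1) (hj : j < n) (ht : t ≤ T)
    (hpos : ∀ u, u < t → (rn M tapes n x y u).pos < j) :
    (rn M tapes n x y t).out.length ≤ j := by
  cases hbit : x.testBit j with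
  | false => exact no_early_core hM (add_two_pow_lt hx hj hbit) hy hodd hj ht hpos
  | true =>
    have hge : 2 ^ j ≤ x := Nat.ge_two_pow_of_testBit hbit
    have hmod : x % 2 ^ j = (x - 2 ^ j) % 2 ^ j := by
      conv_lhs => rw [show x = (x - 2 ^ j) + 2 ^ j by omega]
      simp
    have hag : ∀ t', t' ≤ t → rn M tapes n x y t' = rn M tapes n (x - 2 ^ j) y t' := by
      intro t' ht'
      exact rn_agree hmod fun u hu => hpos u (by omega)
    rw [hag t le_rfl]
    apply no_early_core hM _ hy hodd hj ht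
    · intro u' hu'
      rw [← hag u' (by omega)]
      exact hpos u' hu'
    · rw [Nat.sub_add_cancel hge]
      exact hx

/-- Each position below `n` is reached before time `T`. -/
lemma reach_before {tapes : ℕ → Fin k → ℤ → M.Γ} {n D T x y b : ℕ}
    (hM : MultipliesWithLookahead M tapes n D T) (hx : x < 2 ^ n) (hy : y < 2 ^ n)
    (hodd : y % 2 = 1) (hb : b < n) : ∃ u, u < T ∧ b ≤ (rn M tapes n x y u).pos := by
  by_contra hc
  have h1 : ∀ u, u < T → (rn M tapes n x y u).pos < b := by
    intro u hu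
    by_contra hc'
    exact hc ⟨u, hu, not_lt.1 hc'⟩
  have h2 := no_early hM hx hy hodd hb le_rfl h1
  have h3 := spec_length hM hx hy
  omega

lemma firstT_lt {tapes : ℕ → Fin k → ℤ → M.Γ} {n D T x y b : ℕ}
    (hM : MultipliesWithLookahead M tapes n D T) (hx : x < 2 ^ n) (hy : y < 2 ^ n)
    (hodd : y % 2 = 1) (hb : b < n) : firstT (rn M tapes n x y) b < T := by
  obtain ⟨u, hu, hu'⟩ := reach_before hM hx hy hodd hb
  exact (firstT_le hu').trans_lt hu

lemma firstT_pos {tapes : ℕ → Fin k → ℤ → M.Γ} {n D T x y b : ℕ}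
    (hM : MultipliesWithLookahead M tapes n D T) (hx : x < 2 ^ n) (hy : y < 2 ^ n)
    (hodd : y % 2 = 1) (hb : b < n) :
    (rn M tapes n x y (firstT (rn M tapes n x y) b)).pos = b := by
  obtain ⟨u, hu, hu'⟩ := reach_before hM hx hy hodd hb
  have h1 := firstT_spec (c := rn M tapes n x y) ⟨u, hu'⟩
  apply le_antisymm _ h1
  rcases hs : firstT (rn M tapes n x y) b with _ | s
  · have : (rn M tapes n x y 0).pos = 0 := rfl
    rw [this]
    omega
  · have h2 := firstT_min (c := rn M tapes n x y) (b := b) (u := s) (by omega)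
    have h3 := pos_step_le_succ (M := M) (digitStream n x y) (rn M tapes n x y s)
    exact h3.trans (by omega)

/-- The signature facts at the split of two runs. -/
structure SameSig (tapes : ℕ → Fin k → ℤ → M.Γ) (n y T a m x₁ x₂ : ℕ) : Prop where
  state : (rn M tapes n x₁ y (firstT (rn M tapes n x₁ y) (a + m))).state =
    (rn M tapes n x₂ y (firstT (rn M tapes n x₂ y) (a + m))).state
  head : ∀ i, (rn M tapes n x₁ y (firstT (rn M tapes n x₁ y) (a + m))).head i =
    (rn M tapes n x₂ y (firstT (rn M tapes n x₂ y) (a + m))).head i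
  len : (rn M tapes n x₁ y (firstT (rn M tapes n x₁ y) (a + m))).out.length =
    (rn M tapes n x₂ y (firstT (rn M tapes n x₂ y) (a + m))).out.length
  same : ∀ i z, z ∈ overlap (hd (rn M tapes n x₁ y) i) (ps (rn M tapes n x₁ y)) T a m ↔
      z ∈ overlap (hd (rn M tapes n x₂ y) i) (ps (rn M tapes n x₂ y)) T a m
  tape : ∀ i z, z ∈ overlap (hd (rn M tapes n x₁ y) i) (ps (rn M tapes n x₁ y)) T a m →
      (rn M tapes n x₁ y (firstT (rn M tapes n x₁ y) (a + m))).tape i z =
      (rn M tapes n x₂ y (firstT (rn M tapes n x₂ y) (a + m))).tape i z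

/-- Equal signatures force equal product digits in the window. -/
theorem window_bits {tapes : ℕ → Fin k → ℤ → M.Γ} {n D T y a m x₁ x₂ j : ℕ}
    (hM : MultipliesWithLookahead M tapes n D T) (hx₁ : x₁ < 2 ^ n) (hx₂ : x₂ < 2 ^ n)
    (hy : y < 2 ^ n) (hodd : y % 2 = 1) (hm : 1 ≤ m) (han : a + 2 * m ≤ n)
    (hlow : x₁ % 2 ^ a = x₂ % 2 ^ a) (hhigh : x₁ / 2 ^ (a + m) = x₂ / 2 ^ (a + m))
    (hsig : SameSig tapes n y T a m x₁ x₂) (hj1 : a + m ≤ j) (hj2 : j + D + 1 ≤ a + 2 * m) :
    (x₁ * y).testBit j = (x₂ * y).testBit j := by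
  classical
  set c₁ := rn M tapes n x₁ y with hc₁
  set c₂ := rn M tapes n x₂ y with hc₂
  have hb : a + m < n := by omega
  set s1 := firstT c₁ (a + m) with hs1
  set s2 := firstT c₂ (a + m) with hs2
  set τ := firstT c₁ a with hτ
  have hs1T : s1 < T := firstT_lt hM hx₁ hy hodd hb
  have hs2T : s2 < T := firstT_lt hM hx₂ hy hodd hb
  have hp1 : (c₁ s1).pos = a + m := firstT_pos hM hx₁ hy hodd hb
  have hp2 : (c₂ s2).pos = a + m := firstT_pos hM hx₂ hy hodd hb
  have hpre : ∀ p, p < a → digitStream n x₁ y p = digitStream n x₂ y p :=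
    fun p hp => stream_agree_low hlow hp
  have hpost : ∀ p, a + m ≤ p → digitStream n x₁ y p = digitStream n x₂ y p := by
    intro p hp
    have := testBit_eq_of_key (j := p) hlow hhigh (Or.inr hp)
    simp only [digitStream, this]
  have hτa : a ≤ (c₁ τ).pos := firstT_spec ⟨s1, by omega⟩
  have hτmin : ∀ u, u < τ → (c₁ u).pos < a := fun u hu => firstT_min hu
  have hs1min : ∀ u, u < s1 → (c₁ u).pos < a + m := fun u hu => firstT_min hu
  have hs2min : ∀ u, u < s2 → (c₂ u).pos < a + m := fun u hu => firstT_min hu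
  have hsync := decode_sync (M := M) (ι₁ := digitStream n x₁ y) (ι₂ := digitStream n x₂ y)
    (c₀ := initial M (tapes y)) (T := T) (a := a) (m := m) (τ := τ) (s1 := s1) (s2 := s2)
    hpre hpost hτa hτmin (by rw [hp1]) hs1min (by rw [hp2]) hs2min hs1T.le hs2T.le
    hsig.state (by rw [hp1, hp2]) hsig.head hsig.same hsig.tape
  -- the first moment at which the synchronisation stops
  have hex : ∃ u, ¬ (s1 + u < T ∧ s2 + u < T ∧ (c₁ (s1 + u)).pos < a + 2 * m) :=
    ⟨T, fun h => by omega⟩
  set E := Nat.find hex with hE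
  have hEspec := Nat.find_spec hex
  have hEmin : ∀ u', u' < E → s1 + u' < T ∧ s2 + u' < T ∧ (c₁ (s1 + u')).pos < a + 2 * m := by
    intro u' hu'
    have := Nat.find_min hex hu'
    simpa using this
  have hinv := hsync E hEmin
  have hE1 : s1 + E ≤ T := by
    rcases Nat.eq_zero_or_pos E with h0 | h0
    · rw [h0]; omega
    · have := hEmin (E - 1) (by omega)
      omega
  have hE2 : s2 + E ≤ T := by
    rcases Nat.eq_zero_or_pos E with h0 | h0
    · rw [h0]; omega
    · have := hEmin (E - 1) (by omega)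
      omega
  obtain ⟨w, hw1, hw2⟩ := hinv.out
  have hl1 : (c₁ (s1 + E)).out.length = (c₁ s1).out.length + w.length := by
    rw [hw1, List.length_append]
  have hl2 : (c₂ (s2 + E)).out.length = (c₂ s2).out.length + w.length := by
    rw [hw2, List.length_append]
  have hlen : (c₁ s1).out.length = (c₂ s2).out.length := hsig.len
  have hjn : j < n := by omega
  -- the digit is already there in both runs
  have hjL : j < (c₁ (s1 + E)).out.length := by
    by_cases h1 : s1 + E < T
    · by_cases h2 : s2 + E < T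
      · have h3 : a + 2 * m ≤ (c₁ (s1 + E)).pos := by
          by_contra hc
          exact hEspec ⟨h1, h2, not_le.1 hc⟩
        exact (hM x₁ y hx₁ hy).2 (s1 + E) hE1 j hjn (hj2.trans h3)
      · have h3 : s2 + E = T := by omega
        have h4 := spec_length hM hx₂ hy
        have h5 : (c₂ (s2 + E)).out.length = (rn M tapes n x₂ y T).out.length := by rw [h3]
        omega
    · have h3 : s1 + E = T := by omega
      have h4 := spec_length hM hx₁ hy
      have h5 : (c₁ (s1 + E)).out.length = (rn M tapes n x₁ y T).out.length := by rw [h3]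
      omega
  have hjL2 : j < (c₂ (s2 + E)).out.length := by omega
  have h6 := out_getElem_T hM hx₁ hy hE1 hjL (by omega)
  have h7 := out_getElem_T hM hx₂ hy hE2 hjL2 (by omega)
  have he1 : (c₁ s1).out.length ≤ a + m := no_early hM hx₁ hy hodd hb hs1T.le hs1min
  have he2 : (c₂ s2).out.length ≤ a + m := no_early hM hx₂ hy hodd hb hs2T.le hs2min
  have h8 : (c₁ (s1 + E)).out[j]? = w[j - (c₁ s1).out.length]? := by
    rw [hw1, List.getElem?_append_right (he1.trans hj1)]
  have h9 : (c₂ (s2 + E)).out[j]? = w[j - (c₂ s2).out.length]? := by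
    rw [hw2, List.getElem?_append_right (he2.trans hj1)]
  rw [← hlen] at h9
  have h10 : (rn M tapes n x₁ y (s1 + E)).out[j]? = (rn M tapes n x₂ y (s2 + E)).out[j]? := by
    show (c₁ (s1 + E)).out[j]? = (c₂ (s2 + E)).out[j]?
    rw [h8, h9]
  rw [h6, h7] at h10
  exact Option.some.inj h10

end Vale.Agent.Lib.P338
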